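-- KEEP
import Claimed.Agent.R256.Int.Read
import Claimed.Agent.R255.Rep.Kit
import Claimed.Agent.R255.Cl.Tools.LocA
import Claimed.Agent.R255.Ent.Restr
import Claimed.Agent.R256.LT.Kit

/-!
# Row 256, Sec. 5, block COST (Prop. int:differential-cost, 05 l.145-377): DEFINITIONS      (architect helper267; prefix `it_c_`, defs `itC*`, `ItC*`, `Tan.c*`)

Imports only `Int/Read` + paper-free libraries (NOT `Int/Contract`): at the end `Int/Contract.lean` imports `Int/Cost/Top.lean` and fills `it_cost_*`, `it_width_*`.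

## Plan (all statements for ONE finite tangent datum `T`, everything explicit)
 loss factor      `A = T.cA a acc = δ^(-acc) (B0 + 1)`   (bounds phases, parents, marks, frozen marks, displayed coefficients)
 layer            `p < q`, `t = q - p`, `e0 = δ^p`, `et = δ^t`, `E = δ^q`;  `e0 e0 ≤ E` (`q ≤ 2p`), `e0 et ≤ E`
 frozen name      `Ω = T.cOm kk t` = name of depth `t` of the mark `0` (`kk` : also of `𝔨`), frozen mark `T.cMk kk t`
 4-term inequality `it_c_four` with `A = F_q`, `B = O_l`, `C = (C_*, F_p)`, `U = T.rd p q U` (the EXACT readings; no second tuple is needed):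
   `I(F_q ; O_l | C_*, F_p) ≥ H(U | F_p, 𝒟) - H(Ω | O_l, C) - H(U | F_q, C, Ω) - H(U | O_l, C, Ω)`
 each of the three errors is `≤ n log (⌈4 R⌉ + 1)`, `R = 100 A^6`, by `tl_nval_cell` : the real number read is within `R δ^depth` of a function of the conditioning.
 POINTWISE LEAVES (pure real algebra, no probability): `Pt*.lean`.   `itCPos, itCVel, itCEps` = the three display polynomials of `Tan.DspAt`.
-/

set_option autoImplicit false

namespace Claimed.Agent.R256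

open Claimed.Agent.R255
open Claimed.Agent.R255.FLaw (pair)
open scoped BigOperators
open Classical

/-- all six components bounded by `A` -/
def ItPh.cBd (f : ItPh) (A : ℝ) : Prop := |f.X| ≤ A ∧ |f.B| ≤ A ∧ |f.P| ≤ A ∧ |f.Y| ≤ A ∧ |f.N| ≤ A ∧ |f.D| ≤ A

/-- componentwise closeness -/
def ItPh.cNear (f g : ItPh) (e : ℝ) : Prop :=
  |f.X - g.X| ≤ e ∧ |f.B - g.B| ≤ e ∧ |f.P - g.P| ≤ e ∧ |f.Y - g.Y| ≤ e ∧ |f.N - g.N| ≤ e ∧ |f.D - g.D| ≤ e

/-- a bounded mark -/
def ItMk.cBd (μ : ItMk) (A : ℝ) : Prop := |μ.th| ≤ A ∧ |μ.r| ≤ A ∧ |μ.k| ≤ A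

/-- the residual position polynomial of the display (`Tan.DspAt.pos`) -/
def itCPos (s : ItDsp) (f : ItPh) : ℝ :=
  f.D + s.th * f.N - s.L * (f.B + s.th * f.X) - s.R * (f.Y + s.th * f.X ^ 2) + s.b * (f.B + s.th * f.X) ^ 2

/-- the residual velocity polynomial of the display (`Tan.DspAt.vel`) -/
def itCVel (s : ItDsp) (f : ItPh) : ℝ :=
  f.N - s.L * f.X - s.R * f.X ^ 2 - s.b * ((f.Y + s.th * f.X ^ 2) - 2 * f.X * (f.B + s.th * f.X))

/-- the derivative defect `ε_0` (`Tan.DspAt.derq`) -/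
def itCEps (s : ItDsp) (f : ItPh) : ℝ := f.P - s.L - 2 * s.R * f.X + 2 * s.b * (f.B + s.th * f.X)

/-- POINTWISE FRAME of a layer: actual phase `f`, parent representative `g`, mark `μ`, display `s`. -/
structure ItCFr (A e0 et E : ℝ) (f g : ItPh) (μ : ItMk) (s : ItDsp) : Prop where
  hA : 1 ≤ A
  he0 : 0 ≤ e0
  het : 0 ≤ et
  h00 : e0 * e0 ≤ E
  h0t : e0 * et ≤ E
  bf : f.cBd A
  bg : g.cBd A
  near : f.cNear g e0
  bμ : μ.cBd A
  sth : |s.th| ≤ A
  sL : |s.L| ≤ A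
  sR : |s.R| ≤ A
  sb : |s.b| ≤ A
  time : |s.th - μ.th| ≤ A * et

/-- POINTWISE FRAME on the side of `F_q` : `f'` = representative of the child cell, `μ'` = frozen mark. -/
structure ItCFz (A e0 et E : ℝ) (f f' g : ItPh) (μ μ' : ItMk) : Prop where
  hA : 1 ≤ A
  he0 : 0 ≤ e0
  het : 0 ≤ et
  hE : 0 ≤ E
  h0t : e0 * et ≤ E
  bg : g.cBd A
  near : f.cNear g e0
  near' : f.cNear f' E
  bμ : μ.cBd A
  bμ' : μ'.cBd A
  dth : |μ.th - μ'.th| ≤ et
  dr : |μ.r - μ'.r| ≤ et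

/-- POINTWISE FRAME of the first range: `x` = representative of the cell `X_q`; all four displays are accurate to `A E`. -/
structure ItCFw (A E : ℝ) (f : ItPh) (x : ℝ) (s : ItDsp) : Prop where
  hA : 1 ≤ A
  hE0 : 0 ≤ E
  hE1 : E ≤ 1
  bf : f.cBd A
  hx : |f.X - x| ≤ E
  bx : |x| ≤ A
  sth : |s.th| ≤ A
  sL : |s.L| ≤ A
  sR : |s.R| ≤ A
  sb : |s.b| ≤ A
  hW : |s.W - (f.B + s.th * f.X)| ≤ A * E
  hV : |s.V - (f.Y + s.th * f.X ^ 2)| ≤ A * E
  hvel : |s.vel - itCVel s f| ≤ A * E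
  hpos : |s.pos - itCPos s f| ≤ A * E

/-- the approximant of `N` in the first range -/
def itCyN (s : ItDsp) (x : ℝ) : ℝ := s.vel + s.L * x + s.R * x ^ 2 + s.b * (s.V - 2 * x * s.W)

/-- the approximant of `D` in the first range -/
def itCyD (s : ItDsp) (x : ℝ) : ℝ := s.pos - s.th * itCyN s x + s.L * s.W + s.R * s.V - s.b * s.W ^ 2

namespace Tan

variable (T : Tan)

/-- the loss factor -/
noncomputable def cA (a : ItPar) (acc : ℝ) : ℝ := T.δ ^ (-acc) * (a.B0 + 1)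

/-- the list radius -/
noncomputable def cR (a : ItPar) (acc : ℝ) : ℝ := 100 * T.cA a acc ^ 6

/-- one list: `log (⌈4 R⌉ + 1)` -/
noncomputable def cLg (a : ItPar) (acc : ℝ) : ℝ := Real.log ((⌈4 * T.cR a acc⌉₊ : ℝ) + 1)

/-- `Ω` : the name of depth `t` of the mark `0` -/
noncomputable def cOm (kk : Bool) (t : ℝ) : T.Ω → ℤ × ℤ × ℤ := fun ω =>
  (tcell T.δ t (T.mrk 0 ω).th, tcell T.δ t (T.mrk 0 ω).r, if kk then tcell T.δ t (T.mrk 0 ω).k else 0)

/-- the frozen mark -/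
noncomputable def cMk (kk : Bool) (t : ℝ) : T.Ω → ItMk := fun ω =>
  ⟨trep T.δ t (T.mrk 0 ω).th, trep T.δ t (T.mrk 0 ω).r, if kk then trep T.δ t (T.mrk 0 ω).k else 0⟩

/-- the conditioning `C = (C_*, F_p)` of a layer -/
noncomputable def cC (p : ℝ) : T.Ω → T.γ × ((ℤ × ℤ × ℤ) × (ℤ × ℤ × ℤ)) := pair T.Cs (T.Fn p)

end Tan

/-- coefficient depth per unit of `λ` : `min(1, c - 1)` (quadratic, `c > 1`), `min(1, c)` otherwise -/
noncomputable def ItPar.crho (a : ItPar) (quad : Bool) : ℝ := if quad = true ∧ 1 < a.c then min 1 (a.c - 1) else min 1 a.c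

theorem it_c_defs_eqns_cite : True := by
  have := @ItPh.cBd.eq_1; have := @ItPh.cNear.eq_1; have := @ItMk.cBd.eq_1; have := @itCPos.eq_1; have := @itCVel.eq_1
  have := @itCEps.eq_1; have := @itCyN.eq_1; have := @itCyD.eq_1; have := @Tan.cA.eq_1; have := @Tan.cR.eq_1; have := @Tan.cLg.eq_1
  have := @Tan.cOm.eq_1; have := @Tan.cMk.eq_1; have := @Tan.cC.eq_1; have := @ItPar.crho.eq_1
  trivial

end Claimed.Agent.R256
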