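-- KEEP
import Claimed.Agent.R256.Int.Cost.Defs

/-!
# Row 256, Sec. 5, block COST: POINTWISE ESTIMATES on a layer      (helper267; prefix `it_c_pt_`, `it_c_aux_`)

Pure real algebra (05 l.214-318).  Every centred contact reading is within `100 A^6 E` of an explicit function of the display `s` and of the parent representative `g`.
 `W_0 ← s.W`,  `H ← s.V - 2 X_0 s.W`,  `x_0 ← s.pos`,  `L_0 ← s.L`,  `J - 𝔨H ← s.vel`,  `K - βH ← s.pos - θ' s.vel`,  linear `G_0 ← (s.vel, s.pos - θ' s.vel)`.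
-/

set_option autoImplicit false

namespace Claimed.Agent.R256

open Claimed.Agent.R255

theorem it_c_aux_m2 {a x A e : ℝ} (ha : |a| ≤ A) (hx : |x| ≤ e) : |a * x| ≤ A * e := by
  rw [abs_mul]; exact mul_le_mul ha hx (abs_nonneg _) ((abs_nonneg _).trans ha)

theorem it_c_aux_two {x e : ℝ} (hx : |x| ≤ e) : |2 * x| ≤ 2 * e := by
  rw [abs_mul, abs_two]; linarith

theorem it_c_aux_neg {x e : ℝ} (hx : |x| ≤ e) : |-x| ≤ e := by rwa [abs_neg]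

theorem it_c_aux_add {a b A B : ℝ} (ha : |a| ≤ A) (hb : |b| ≤ B) : |a + b| ≤ A + B :=
  (abs_add_le a b).trans (add_le_add ha hb)

theorem it_c_aux_sub {a b A B : ℝ} (ha : |a| ≤ A) (hb : |b| ≤ B) : |a - b| ≤ A + B :=
  (abs_sub a b).trans (add_le_add ha hb)

/-- final step: `cE E + cu (e0 e0) + cv (e0 et) ≤ 100 A^6 E` -/
theorem it_c_aux_fin {A E u v cE cu cv : ℝ} (hE : 0 ≤ E) (hu : u ≤ E) (hv : v ≤ E) (h1 : 0 ≤ cu) (h2 : 0 ≤ cv)
    (h : cE + cu + cv ≤ 100 * A ^ 6) : cE * E + cu * u + cv * v ≤ 100 * A ^ 6 * E := by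
  have a1 := mul_le_mul_of_nonneg_left hu h1
  have a2 := mul_le_mul_of_nonneg_left hv h2
  have a3 := mul_le_mul_of_nonneg_right h hE
  nlinarith

/-- powers of `A ≥ 1` -/
theorem it_c_aux_pow {A : ℝ} (hA : 1 ≤ A) : 1 ≤ A ^ 6 ∧ A ≤ A ^ 6 ∧ A ^ 2 ≤ A ^ 6 ∧ A ^ 3 ≤ A ^ 6 ∧ A ^ 4 ≤ A ^ 6 ∧ A ^ 5 ≤ A ^ 6 := by
  refine ⟨one_le_pow₀ hA, ?_, pow_le_pow_right₀ hA (by norm_num), pow_le_pow_right₀ hA (by norm_num),
    pow_le_pow_right₀ hA (by norm_num), pow_le_pow_right₀ hA (by norm_num)⟩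
  calc A = A ^ 1 := (pow_one A).symm
    _ ≤ A ^ 6 := pow_le_pow_right₀ hA (by norm_num)

variable {A e0 et E : ℝ} {f g : ItPh} {μ : ItMk} {s : ItDsp}

/-- P1 : `W_0` from the first base position -/
theorem it_c_pt_W (fr : ItCFr A e0 et E f g μ s) (hW : |s.W - (f.B + s.th * f.X)| ≤ A * E) :
    |itVal (itcW μ) f g - (s.W - (g.B + s.th * g.X))| ≤ 100 * A ^ 6 * E := by
  obtain ⟨hA, he0, het, h00, h0t, -, -, ⟨dX, dB, dP, dY, dN, dD⟩, -, sth, sL, sR, sb, time⟩ := fr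
  have hA0 : 0 ≤ A := by linarith
  have hE : 0 ≤ E := (mul_nonneg he0 he0).trans h00
  obtain ⟨p0, p1, p2, p3, p4, p5⟩ := it_c_aux_pow hA
  have key : itVal (itcW μ) f g - (s.W - (g.B + s.th * g.X))
      = -(s.W - (f.B + s.th * f.X)) - (s.th - μ.th) * (f.X - g.X) := by
    simp only [itVal, itcW]; ring
  rw [key]
  refine (it_c_aux_sub (it_c_aux_neg hW) (it_c_aux_m2 time dX)).trans ?_
  refine le_trans (le_of_eq ?_) (it_c_aux_fin (A := A) (cE := A) (cu := 0) (cv := A) hE h00 h0t le_rfl hA0 (by linarith))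
  ring

/-- P2 : `H` from the two base positions -/
theorem it_c_pt_H (fr : ItCFr A e0 et E f g μ s) (hW : |s.W - (f.B + s.th * f.X)| ≤ A * E)
    (hV : |s.V - (f.Y + s.th * f.X ^ 2)| ≤ A * E) :
    |itVal (itcH g) f g - (s.V - 2 * g.X * s.W + s.th * g.X ^ 2 - g.Y + 2 * g.X * g.B)| ≤ 100 * A ^ 6 * E := by
  obtain ⟨hA, he0, het, h00, h0t, -, ⟨gX, gB, gP, gY, gN, gD⟩, ⟨dX, dB, dP, dY, dN, dD⟩, -, sth, sL, sR, sb, time⟩ := fr
  have hA0 : 0 ≤ A := by linarith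
  have hE : 0 ≤ E := (mul_nonneg he0 he0).trans h00
  obtain ⟨p0, p1, p2, p3, p4, p5⟩ := it_c_aux_pow hA
  have key : itVal (itcH g) f g - (s.V - 2 * g.X * s.W + s.th * g.X ^ 2 - g.Y + 2 * g.X * g.B)
      = -(s.V - (f.Y + s.th * f.X ^ 2)) + 2 * (g.X * (s.W - (f.B + s.th * f.X))) - s.th * ((f.X - g.X) * (f.X - g.X)) := by
    simp only [itVal, itcH]; ring
  rw [key]
  refine (it_c_aux_sub (it_c_aux_add (it_c_aux_neg hV) (it_c_aux_two (it_c_aux_m2 gX hW)))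
    (it_c_aux_m2 sth (it_c_aux_m2 dX dX))).trans ?_
  refine le_trans (le_of_eq ?_) (it_c_aux_fin (A := A) (cE := A + 2 * A ^ 2) (cu := A) (cv := 0) hE h00 h0t hA0 le_rfl (by linarith))
  ring

/-- P3 : quadratic `x_0` from the residual position -/
theorem it_c_pt_xq (fr : ItCFr A e0 et E f g μ s)
    (hR : |s.R - μ.r| ≤ 2 * A ^ 2 * et) (hε : |itCEps s f| ≤ A * et) (hpos : |s.pos - itCPos s f| ≤ A * E) :
    |itVal (itcxq g μ) f g - (s.pos - itCPos s g)| ≤ 100 * A ^ 6 * E := by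
  obtain ⟨hA, he0, het, h00, h0t, -, ⟨gX, gB, gP, gY, gN, gD⟩, ⟨dX, dB, dP, dY, dN, dD⟩, -, sth, sL, sR, sb, time⟩ := fr
  have hA0 : 0 ≤ A := by linarith
  have hE : 0 ≤ E := (mul_nonneg he0 he0).trans h00
  obtain ⟨p0, p1, p2, p3, p4, p5⟩ := it_c_aux_pow hA
  have key : itVal (itcxq g μ) f g - (s.pos - itCPos s g) =
     -(s.pos - itCPos s f) + (f.P - g.P) * (f.B - g.B) - (s.th - μ.th) * ((f.N - g.N) - g.P * (f.X - g.X)) + s.th * ((f.P - g.P) * (f.X - g.X))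
      + (s.R - μ.r) * ((f.Y - g.Y) - 2 * (g.X * (f.B - g.B))) - 2 * (s.R * ((f.X - g.X) * (f.B - g.B))) - s.R * (s.th * ((f.X - g.X) * (f.X - g.X)))
      - itCEps s f * ((f.B - g.B) + s.th * (f.X - g.X)) + s.b * (((f.B - g.B) + s.th * (f.X - g.X)) * ((f.B - g.B) + s.th * (f.X - g.X))) := by
    simp only [itVal, itcxq, itCPos, itCEps]; ring
  have hJ := it_c_aux_sub dN (it_c_aux_m2 gP dX)
  have hH := it_c_aux_sub dY (it_c_aux_two (it_c_aux_m2 gX dB))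
  have hW := it_c_aux_add dB (it_c_aux_m2 sth dX)
  rw [key]
  refine (it_c_aux_add (it_c_aux_sub (it_c_aux_sub (it_c_aux_sub (it_c_aux_add (it_c_aux_add (it_c_aux_sub (it_c_aux_add
    (it_c_aux_neg hpos) (it_c_aux_m2 dP dB)) (it_c_aux_m2 time hJ)) (it_c_aux_m2 sth (it_c_aux_m2 dP dX))) (it_c_aux_m2 hR hH))
    (it_c_aux_two (it_c_aux_m2 sR (it_c_aux_m2 dX dB)))) (it_c_aux_m2 sR (it_c_aux_m2 sth (it_c_aux_m2 dX dX))))
    (it_c_aux_m2 hε hW)) (it_c_aux_m2 sb (it_c_aux_m2 hW hW))).trans ?_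
  refine le_trans (le_of_eq ?_) (it_c_aux_fin (A := A) (cE := A) (cu := 1 + A + 2 * A + A ^ 2 + A * (1 + A) ^ 2)
    (cv := A * (1 + A) + 2 * A ^ 2 * (1 + 2 * A) + A * (1 + A)) hE h00 h0t (by positivity) (by positivity) (by linarith))
  ring

/-- P4 : linear `x_0` from the residual position -/
theorem it_c_pt_xl (fr : ItCFr A e0 et E f g μ s)
    (hL : |μ.r - s.L| ≤ A * et) (hR0 : |s.R| ≤ A * E) (hb0 : |s.b| ≤ A * E) (hpos : |s.pos - itCPos s f| ≤ A * E) :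
    |itVal (itcxl μ) f g - (s.pos - itCPos s g)| ≤ 100 * A ^ 6 * E := by
  obtain ⟨hA, he0, het, h00, h0t, ⟨fX, fB, fP, fY, fN, fD⟩, ⟨gX, gB, gP, gY, gN, gD⟩, ⟨dX, dB, dP, dY, dN, dD⟩, ⟨μth, μr, μk⟩,
    sth, sL, sR, sb, time⟩ := fr
  have hA0 : 0 ≤ A := by linarith
  have hE : 0 ≤ E := (mul_nonneg he0 he0).trans h00
  obtain ⟨p0, p1, p2, p3, p4, p5⟩ := it_c_aux_pow hA
  have key : itVal (itcxl μ) f g - (s.pos - itCPos s g) =
     -(s.pos - itCPos s f) - (s.th - μ.th) * (f.N - g.N) - (μ.r - s.L) * (f.B - g.B)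
      + μ.r * ((s.th - μ.th) * (f.X - g.X)) - (μ.r - s.L) * (s.th * (f.X - g.X))
      + s.R * ((f.Y + s.th * (f.X * f.X)) - (g.Y + s.th * (g.X * g.X)))
      - s.b * ((f.B + s.th * f.X) * (f.B + s.th * f.X) - (g.B + s.th * g.X) * (g.B + s.th * g.X)) := by
    simp only [itVal, itcxl, itCPos]; ring
  have hVf := it_c_aux_add fY (it_c_aux_m2 sth (it_c_aux_m2 fX fX))
  have hVg := it_c_aux_add gY (it_c_aux_m2 sth (it_c_aux_m2 gX gX))
  have hWf := it_c_aux_add fB (it_c_aux_m2 sth fX)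
  have hWg := it_c_aux_add gB (it_c_aux_m2 sth gX)
  rw [key]
  refine (it_c_aux_sub (it_c_aux_add (it_c_aux_sub (it_c_aux_add (it_c_aux_sub (it_c_aux_sub
    (it_c_aux_neg hpos) (it_c_aux_m2 time dN)) (it_c_aux_m2 hL dB)) (it_c_aux_m2 μr (it_c_aux_m2 time dX)))
    (it_c_aux_m2 hL (it_c_aux_m2 sth dX))) (it_c_aux_m2 hR0 (it_c_aux_sub hVf hVg)))
    (it_c_aux_m2 hb0 (it_c_aux_sub (it_c_aux_m2 hWf hWf) (it_c_aux_m2 hWg hWg)))).trans ?_
  refine le_trans (le_of_eq ?_) (it_c_aux_fin (A := A) (cE := A + A * (2 * (A + A ^ 3)) + A * (2 * (A + A ^ 2) ^ 2)) (cu := 0)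
    (cv := A + A + A ^ 2 + A ^ 2) hE h00 h0t le_rfl (by positivity) (by linarith))
  ring

/-- P5 : `L_0` from the derivative display -/
theorem it_c_pt_L (fr : ItCFr A e0 et E f g μ s)
    (hb : |s.b - μ.k| ≤ A * et) (ha : |s.R - s.th * s.b - μ.be| ≤ A * et) (hε : |itCEps s f| ≤ A * E) :
    |itVal (itcL μ) f g - (s.L - (g.P - 2 * (s.R - s.th * s.b) * g.X + 2 * s.b * g.B))| ≤ 100 * A ^ 6 * E := by
  obtain ⟨hA, he0, het, h00, h0t, -, -, ⟨dX, dB, dP, dY, dN, dD⟩, -, sth, sL, sR, sb, time⟩ := fr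
  have hA0 : 0 ≤ A := by linarith
  have hE : 0 ≤ E := (mul_nonneg he0 he0).trans h00
  obtain ⟨p0, p1, p2, p3, p4, p5⟩ := it_c_aux_pow hA
  have key : itVal (itcL μ) f g - (s.L - (g.P - 2 * (s.R - s.th * s.b) * g.X + 2 * s.b * g.B))
      = itCEps s f + 2 * ((s.R - s.th * s.b - μ.be) * (f.X - g.X)) - 2 * ((s.b - μ.k) * (f.B - g.B)) := by
    simp only [itVal, itcL, itCEps]; ring
  rw [key]
  refine (it_c_aux_sub (it_c_aux_add hε (it_c_aux_two (it_c_aux_m2 ha dX))) (it_c_aux_two (it_c_aux_m2 hb dB))).trans ?_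
  refine le_trans (le_of_eq ?_) (it_c_aux_fin (A := A) (cE := A) (cu := 0) (cv := 4 * A) hE h00 h0t le_rfl (by positivity) (by linarith))
  ring

/-- P6 : `J - 𝔨 H` from the residual velocity -/
theorem it_c_pt_G2 (fr : ItCFr A e0 et E f g μ s)
    (hb : |s.b - μ.k| ≤ A * et) (hε : |itCEps s f| ≤ A * et) (hvel : |s.vel - itCVel s f| ≤ A * E) :
    |itVal (itcG2 g μ) f g - (s.vel - itCVel s g)| ≤ 100 * A ^ 6 * E := by
  obtain ⟨hA, he0, het, h00, h0t, -, ⟨gX, gB, gP, gY, gN, gD⟩, ⟨dX, dB, dP, dY, dN, dD⟩, -, sth, sL, sR, sb, time⟩ := fr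
  have hA0 : 0 ≤ A := by linarith
  have hE : 0 ≤ E := (mul_nonneg he0 he0).trans h00
  obtain ⟨p0, p1, p2, p3, p4, p5⟩ := it_c_aux_pow hA
  have key : itVal (itcG2 g μ) f g - (s.vel - itCVel s g) =
     -(s.vel - itCVel s f) + (s.b - μ.k) * ((f.Y - g.Y) - 2 * (g.X * (f.B - g.B))) + (f.P - g.P) * (f.X - g.X)
      - (s.R - s.th * s.b) * ((f.X - g.X) * (f.X - g.X)) - itCEps s f * (f.X - g.X) := by
    simp only [itVal, itcG2, itCVel, itCEps]; ring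
  have hH := it_c_aux_sub dY (it_c_aux_two (it_c_aux_m2 gX dB))
  rw [key]
  refine (it_c_aux_sub (it_c_aux_sub (it_c_aux_add (it_c_aux_add (it_c_aux_neg hvel) (it_c_aux_m2 hb hH)) (it_c_aux_m2 dP dX))
    (it_c_aux_m2 (it_c_aux_sub sR (it_c_aux_m2 sth sb)) (it_c_aux_m2 dX dX))) (it_c_aux_m2 hε dX)).trans ?_
  refine le_trans (le_of_eq ?_) (it_c_aux_fin (A := A) (cE := A) (cu := 1 + (A + A ^ 2))
    (cv := A * (1 + 2 * A) + A) hE h00 h0t (by positivity) (by positivity) (by linarith))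
  ring

/-- P7 : `K - β H` from the backflowed residual position -/
theorem it_c_pt_G3 (fr : ItCFr A e0 et E f g μ s)
    (ha : |s.R - s.th * s.b - μ.be| ≤ A * et) (hε : |itCEps s f| ≤ A * et)
    (hpos : |s.pos - itCPos s f| ≤ A * E) (hvel : |s.vel - itCVel s f| ≤ A * E) :
    |itVal (itcG3 g μ) f g - ((s.pos - itCPos s g) - s.th * (s.vel - itCVel s g))| ≤ 100 * A ^ 6 * E := by
  obtain ⟨hA, he0, het, h00, h0t, -, ⟨gX, gB, gP, gY, gN, gD⟩, ⟨dX, dB, dP, dY, dN, dD⟩, -, sth, sL, sR, sb, time⟩ := fr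
  have hA0 : 0 ≤ A := by linarith
  have hE : 0 ≤ E := (mul_nonneg he0 he0).trans h00
  obtain ⟨p0, p1, p2, p3, p4, p5⟩ := it_c_aux_pow hA
  have key : itVal (itcG3 g μ) f g - ((s.pos - itCPos s g) - s.th * (s.vel - itCVel s g)) =
     -(s.pos - itCPos s f) + s.th * (s.vel - itCVel s f) + (s.R - s.th * s.b - μ.be) * ((f.Y - g.Y) - 2 * (g.X * (f.B - g.B)))
      + (f.P - g.P) * (f.B - g.B) - 2 * (s.R * ((f.X - g.X) * (f.B - g.B))) - s.th * (s.th * (s.b * ((f.X - g.X) * (f.X - g.X))))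
      - itCEps s f * (f.B - g.B) + s.b * (((f.B - g.B) + s.th * (f.X - g.X)) * ((f.B - g.B) + s.th * (f.X - g.X))) := by
    simp only [itVal, itcG3, itCPos, itCVel, itCEps]; ring
  have hH := it_c_aux_sub dY (it_c_aux_two (it_c_aux_m2 gX dB))
  have hW := it_c_aux_add dB (it_c_aux_m2 sth dX)
  rw [key]
  refine (it_c_aux_add (it_c_aux_sub (it_c_aux_sub (it_c_aux_sub (it_c_aux_add (it_c_aux_add (it_c_aux_add
    (it_c_aux_neg hpos) (it_c_aux_m2 sth hvel)) (it_c_aux_m2 ha hH)) (it_c_aux_m2 dP dB))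
    (it_c_aux_two (it_c_aux_m2 sR (it_c_aux_m2 dX dB)))) (it_c_aux_m2 sth (it_c_aux_m2 sth (it_c_aux_m2 sb (it_c_aux_m2 dX dX)))))
    (it_c_aux_m2 hε dB)) (it_c_aux_m2 sb (it_c_aux_m2 hW hW))).trans ?_
  refine le_trans (le_of_eq ?_) (it_c_aux_fin (A := A) (cE := A + A ^ 2) (cu := 1 + 2 * A + A ^ 3 + A * (1 + A) ^ 2)
    (cv := A * (1 + 2 * A) + A) hE h00 h0t (by positivity) (by positivity) (by linarith))
  ring

/-- P8 : linear `dN - r dX` from the residual velocity -/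
theorem it_c_pt_Ga (fr : ItCFr A e0 et E f g μ s)
    (hL : |μ.r - s.L| ≤ A * et) (hR0 : |s.R| ≤ A * E) (hb0 : |s.b| ≤ A * E) (hvel : |s.vel - itCVel s f| ≤ A * E) :
    |itVal (itcGa μ) f g - (s.vel - itCVel s g)| ≤ 100 * A ^ 6 * E := by
  obtain ⟨hA, he0, het, h00, h0t, ⟨fX, fB, fP, fY, fN, fD⟩, ⟨gX, gB, gP, gY, gN, gD⟩, ⟨dX, dB, dP, dY, dN, dD⟩, ⟨μth, μr, μk⟩,
    sth, sL, sR, sb, time⟩ := fr
  have hA0 : 0 ≤ A := by linarith
  have hE : 0 ≤ E := (mul_nonneg he0 he0).trans h00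
  obtain ⟨p0, p1, p2, p3, p4, p5⟩ := it_c_aux_pow hA
  have key : itVal (itcGa μ) f g - (s.vel - itCVel s g) =
     -(s.vel - itCVel s f) - (μ.r - s.L) * (f.X - g.X) + s.R * (f.X * f.X - g.X * g.X)
      + s.b * (((f.Y + s.th * (f.X * f.X)) - 2 * (f.X * (f.B + s.th * f.X))) - ((g.Y + s.th * (g.X * g.X)) - 2 * (g.X * (g.B + s.th * g.X)))) := by
    simp only [itVal, itcGa, itCVel]; ring
  have hQf := it_c_aux_sub (it_c_aux_add fY (it_c_aux_m2 sth (it_c_aux_m2 fX fX)))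
    (it_c_aux_two (it_c_aux_m2 fX (it_c_aux_add fB (it_c_aux_m2 sth fX))))
  have hQg := it_c_aux_sub (it_c_aux_add gY (it_c_aux_m2 sth (it_c_aux_m2 gX gX)))
    (it_c_aux_two (it_c_aux_m2 gX (it_c_aux_add gB (it_c_aux_m2 sth gX))))
  rw [key]
  refine (it_c_aux_add (it_c_aux_add (it_c_aux_sub (it_c_aux_neg hvel) (it_c_aux_m2 hL dX))
    (it_c_aux_m2 hR0 (it_c_aux_sub (it_c_aux_m2 fX fX) (it_c_aux_m2 gX gX)))) (it_c_aux_m2 hb0 (it_c_aux_sub hQf hQg))).trans ?_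
  refine le_trans (le_of_eq ?_) (it_c_aux_fin (A := A) (cE := A + A * (2 * A ^ 2) + A * (2 * (A + A ^ 3 + 2 * (A * (A + A ^ 2))))) (cu := 0)
    (cv := A) hE h00 h0t le_rfl (by positivity) (by linarith))
  ring

/-- P9 : linear `dD - r dB` from the backflowed residual position -/
theorem it_c_pt_Gb (fr : ItCFr A e0 et E f g μ s)
    (hL : |μ.r - s.L| ≤ A * et) (hR0 : |s.R| ≤ A * E) (hb0 : |s.b| ≤ A * E)
    (hpos : |s.pos - itCPos s f| ≤ A * E) (hvel : |s.vel - itCVel s f| ≤ A * E) :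
    |itVal (itcGb μ) f g - ((s.pos - itCPos s g) - s.th * (s.vel - itCVel s g))| ≤ 100 * A ^ 6 * E := by
  obtain ⟨hA, he0, het, h00, h0t, ⟨fX, fB, fP, fY, fN, fD⟩, ⟨gX, gB, gP, gY, gN, gD⟩, ⟨dX, dB, dP, dY, dN, dD⟩, ⟨μth, μr, μk⟩,
    sth, sL, sR, sb, time⟩ := fr
  have hA0 : 0 ≤ A := by linarith
  have hE : 0 ≤ E := (mul_nonneg he0 he0).trans h00
  obtain ⟨p0, p1, p2, p3, p4, p5⟩ := it_c_aux_pow hA
  have key : itVal (itcGb μ) f g - ((s.pos - itCPos s g) - s.th * (s.vel - itCVel s g)) =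
     -(s.pos - itCPos s f) + s.th * (s.vel - itCVel s f) - (μ.r - s.L) * (f.B - g.B) + s.R * (f.Y - g.Y)
      - s.b * ((f.B + s.th * f.X) * (f.B + s.th * f.X) - (g.B + s.th * g.X) * (g.B + s.th * g.X))
      - s.b * (s.th * (((f.Y + s.th * (f.X * f.X)) - 2 * (f.X * (f.B + s.th * f.X))) - ((g.Y + s.th * (g.X * g.X)) - 2 * (g.X * (g.B + s.th * g.X))))) := by
    simp only [itVal, itcGb, itCPos, itCVel]; ring
  have hQf := it_c_aux_sub (it_c_aux_add fY (it_c_aux_m2 sth (it_c_aux_m2 fX fX)))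
    (it_c_aux_two (it_c_aux_m2 fX (it_c_aux_add fB (it_c_aux_m2 sth fX))))
  have hQg := it_c_aux_sub (it_c_aux_add gY (it_c_aux_m2 sth (it_c_aux_m2 gX gX)))
    (it_c_aux_two (it_c_aux_m2 gX (it_c_aux_add gB (it_c_aux_m2 sth gX))))
  have hWf := it_c_aux_add fB (it_c_aux_m2 sth fX)
  have hWg := it_c_aux_add gB (it_c_aux_m2 sth gX)
  rw [key]
  refine (it_c_aux_sub (it_c_aux_sub (it_c_aux_add (it_c_aux_sub (it_c_aux_add (it_c_aux_neg hpos) (it_c_aux_m2 sth hvel))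
    (it_c_aux_m2 hL dB)) (it_c_aux_m2 hR0 (it_c_aux_sub fY gY)))
    (it_c_aux_m2 hb0 (it_c_aux_sub (it_c_aux_m2 hWf hWf) (it_c_aux_m2 hWg hWg))))
    (it_c_aux_m2 hb0 (it_c_aux_m2 sth (it_c_aux_sub hQf hQg)))).trans ?_
  refine le_trans (le_of_eq ?_) (it_c_aux_fin (A := A)
    (cE := A + A ^ 2 + A * (2 * A) + A * (2 * (A + A ^ 2) ^ 2) + A * (A * (2 * (A + A ^ 3 + 2 * (A * (A + A ^ 2)))))) (cu := 0)
    (cv := A) hE h00 h0t le_rfl (by positivity) (by linarith))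
  ring

end Claimed.Agent.R256
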