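-- KEEP
import Claimed.Agent.R256.Int.Cost.Pt

/-!
# Row 256, Sec. 5, block COST: POINTWISE ESTIMATES, part 2      (helper267; prefix `it_c_pw_` first range, `it_c_pz_` side of `F_q`)

 `it_c_pw_*` (05 l.205-213) : the display and the representative `x` of `X_q` fix `B, Y, N, D, P` within `100 A^6 E`.
 `it_c_pz_*` : a contact reading changes by at most `100 A^6 E` if the mark is frozen at depth `t` and the phase is replaced by the representative of its child cell.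
-/

set_option autoImplicit false

namespace Claimed.Agent.R256

open Claimed.Agent.R255

section first
variable {A E : ℝ} {f : ItPh} {x : ℝ} {s : ItDsp}

theorem it_c_pw_B (fr : ItCFw A E f x s) : |f.B - (s.W - s.th * x)| ≤ 100 * A ^ 6 * E := by
  obtain ⟨hA, hE0, hE1, ⟨fX, fB, fP, fY, fN, fD⟩, hx, bx, sth, sL, sR, sb, hW, hV, hvel, hpos⟩ := fr
  have hA0 : 0 ≤ A := by linarith
  obtain ⟨p0, p1, p2, p3, p4, p5⟩ := it_c_aux_pow hA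
  have key : f.B - (s.W - s.th * x) = -(s.W - (f.B + s.th * f.X)) - s.th * (f.X - x) := by ring
  rw [key]
  refine (it_c_aux_sub (it_c_aux_neg hW) (it_c_aux_m2 sth hx)).trans ?_
  refine le_trans (le_of_eq ?_) (it_c_aux_fin (A := A) (u := 0) (v := 0) (cE := 2 * A) (cu := 0) (cv := 0) hE0 hE0 hE0 le_rfl le_rfl (by linarith))
  ring

theorem it_c_pw_Y (fr : ItCFw A E f x s) : |f.Y - (s.V - s.th * x ^ 2)| ≤ 100 * A ^ 6 * E := by
  obtain ⟨hA, hE0, hE1, ⟨fX, fB, fP, fY, fN, fD⟩, hx, bx, sth, sL, sR, sb, hW, hV, hvel, hpos⟩ := fr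
  have hA0 : 0 ≤ A := by linarith
  obtain ⟨p0, p1, p2, p3, p4, p5⟩ := it_c_aux_pow hA
  have key : f.Y - (s.V - s.th * x ^ 2) = -(s.V - (f.Y + s.th * f.X ^ 2)) - s.th * ((f.X - x) * (f.X + x)) := by ring
  rw [key]
  refine (it_c_aux_sub (it_c_aux_neg hV) (it_c_aux_m2 sth (it_c_aux_m2 hx (it_c_aux_add fX bx)))).trans ?_
  refine le_trans (le_of_eq ?_) (it_c_aux_fin (A := A) (u := 0) (v := 0) (cE := A + 2 * A ^ 2) (cu := 0) (cv := 0) hE0 hE0 hE0 le_rfl le_rfl (by linarith))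
  ring

theorem it_c_pw_N0 (fr : ItCFw A E f x s) : |f.N - itCyN s x| ≤ 11 * A ^ 3 * E := by
  obtain ⟨hA, hE0, hE1, ⟨fX, fB, fP, fY, fN, fD⟩, hx, bx, sth, sL, sR, sb, hW, hV, hvel, hpos⟩ := fr
  have hA0 : 0 ≤ A := by linarith
  have q1 : A ≤ A ^ 3 := by nlinarith [mul_nonneg hA0 hA0]
  have q2 : A ^ 2 ≤ A ^ 3 := by nlinarith [mul_nonneg hA0 hA0]
  have key : f.N - itCyN s x = -(s.vel - itCVel s f) + s.L * (f.X - x) + s.R * ((f.X - x) * (f.X + x))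
      + s.b * (-(s.V - (f.Y + s.th * f.X ^ 2)) - 2 * ((f.X - x) * (f.B + s.th * f.X) - x * (s.W - (f.B + s.th * f.X)))) := by
    simp only [itCyN, itCVel]; ring
  have hWf := it_c_aux_add fB (it_c_aux_m2 sth fX)
  rw [key]
  refine (it_c_aux_add (it_c_aux_add (it_c_aux_add (it_c_aux_neg hvel) (it_c_aux_m2 sL hx)) (it_c_aux_m2 sR (it_c_aux_m2 hx (it_c_aux_add fX bx))))
    (it_c_aux_m2 sb (it_c_aux_sub (it_c_aux_neg hV) (it_c_aux_two (it_c_aux_sub (it_c_aux_m2 hx hWf) (it_c_aux_m2 bx hW)))))).trans ?_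
  have : A * E + A * E + A * (E * (A + A)) + A * (A * E + 2 * (E * (A + A * A) + A * (A * E)))
      = (2 * A + 5 * A ^ 2 + 4 * A ^ 3) * E := by ring
  rw [this]
  exact mul_le_mul_of_nonneg_right (by linarith) hE0

theorem it_c_pw_N (fr : ItCFw A E f x s) : |f.N - itCyN s x| ≤ 100 * A ^ 6 * E := by
  refine (it_c_pw_N0 fr).trans (mul_le_mul_of_nonneg_right ?_ fr.hE0)
  obtain ⟨p0, p1, p2, p3, p4, p5⟩ := it_c_aux_pow fr.hA
  have : 0 ≤ A ^ 6 := by linarith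
  linarith

theorem it_c_pw_D (fr : ItCFw A E f x s) : |f.D - itCyD s x| ≤ 100 * A ^ 6 * E := by
  have hN := it_c_pw_N0 fr
  obtain ⟨hA, hE0, hE1, ⟨fX, fB, fP, fY, fN, fD⟩, hx, bx, sth, sL, sR, sb, hW, hV, hvel, hpos⟩ := fr
  have hA0 : 0 ≤ A := by linarith
  obtain ⟨p0, p1, p2, p3, p4, p5⟩ := it_c_aux_pow hA
  have key : f.D - itCyD s x = -(s.pos - itCPos s f) - s.th * (f.N - itCyN s x) - s.L * (s.W - (f.B + s.th * f.X))
      - s.R * (s.V - (f.Y + s.th * f.X ^ 2))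
      + s.b * ((s.W - (f.B + s.th * f.X)) * ((s.W - (f.B + s.th * f.X)) + 2 * (f.B + s.th * f.X))) := by
    simp only [itCyD, itCPos]; ring
  have hWf := it_c_aux_add fB (it_c_aux_m2 sth fX)
  rw [key]
  refine (it_c_aux_add (it_c_aux_sub (it_c_aux_sub (it_c_aux_sub (it_c_aux_neg hpos) (it_c_aux_m2 sth hN)) (it_c_aux_m2 sL hW)) (it_c_aux_m2 sR hV))
    (it_c_aux_m2 sb (it_c_aux_m2 hW (it_c_aux_add hW (it_c_aux_two hWf))))).trans ?_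
  have hEE : E * E ≤ E := by nlinarith
  refine le_trans (le_of_eq ?_) (it_c_aux_fin (A := A) (u := E * E) (v := 0) (cE := A + 11 * A ^ 4 + 2 * A ^ 2 + A ^ 2 * (2 * (A + A ^ 2)))
    (cu := A ^ 3) (cv := 0) hE0 hEE hE0 (by positivity) le_rfl (by linarith))
  ring

theorem it_c_pw_P (fr : ItCFw A E f x s) (hε : |itCEps s f| ≤ A * E) :
    |f.P - (s.L + 2 * s.R * x - 2 * s.b * s.W)| ≤ 100 * A ^ 6 * E := by
  obtain ⟨hA, hE0, hE1, ⟨fX, fB, fP, fY, fN, fD⟩, hx, bx, sth, sL, sR, sb, hW, hV, hvel, hpos⟩ := fr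
  have hA0 : 0 ≤ A := by linarith
  obtain ⟨p0, p1, p2, p3, p4, p5⟩ := it_c_aux_pow hA
  have key : f.P - (s.L + 2 * s.R * x - 2 * s.b * s.W)
      = itCEps s f + 2 * (s.R * (f.X - x)) + 2 * (s.b * (s.W - (f.B + s.th * f.X))) := by
    simp only [itCEps]; ring
  rw [key]
  refine (it_c_aux_add (it_c_aux_add hε (it_c_aux_two (it_c_aux_m2 sR hx))) (it_c_aux_two (it_c_aux_m2 sb hW))).trans ?_
  refine le_trans (le_of_eq ?_) (it_c_aux_fin (A := A) (u := 0) (v := 0) (cE := 3 * A + 2 * A ^ 2) (cu := 0) (cv := 0) hE0 hE0 hE0 le_rfl le_rfl (by linarith))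
  ring

end first

section zside
variable {A e0 et E : ℝ} {f f' g : ItPh} {μ μ' : ItMk}

theorem it_c_pz_W (fr : ItCFz A e0 et E f f' g μ μ') : |itVal (itcW μ) f g - itVal (itcW μ') f' g| ≤ 100 * A ^ 6 * E := by
  obtain ⟨hA, he0, het, hE, h0t, ⟨gX, gB, gP, gY, gN, gD⟩, ⟨dX, dB, dP, dY, dN, dD⟩, ⟨nX, nB, nP, nY, nN, nD⟩, ⟨mth, mr, mk⟩,
    ⟨mth', mr', mk'⟩, dth, dr⟩ := fr
  have hA0 : 0 ≤ A := by linarith
  obtain ⟨p0, p1, p2, p3, p4, p5⟩ := it_c_aux_pow hA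
  have key : itVal (itcW μ) f g - itVal (itcW μ') f' g = (μ.th - μ'.th) * (f.X - g.X) + μ'.th * (f.X - f'.X) + (f.B - f'.B) := by
    simp only [itVal, itcW]; ring
  rw [key]
  refine (it_c_aux_add (it_c_aux_add (it_c_aux_m2 dth dX) (it_c_aux_m2 mth' nX)) nB).trans ?_
  refine le_trans (le_of_eq ?_) (it_c_aux_fin (A := A) (u := 0) (cE := A + 1) (cu := 0) (cv := 1) hE hE h0t le_rfl (by norm_num) (by linarith))
  ring

theorem it_c_pz_H (fr : ItCFz A e0 et E f f' g μ μ') : |itVal (itcH g) f g - itVal (itcH g) f' g| ≤ 100 * A ^ 6 * E := by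
  obtain ⟨hA, he0, het, hE, h0t, ⟨gX, gB, gP, gY, gN, gD⟩, ⟨dX, dB, dP, dY, dN, dD⟩, ⟨nX, nB, nP, nY, nN, nD⟩, ⟨mth, mr, mk⟩,
    ⟨mth', mr', mk'⟩, dth, dr⟩ := fr
  have hA0 : 0 ≤ A := by linarith
  obtain ⟨p0, p1, p2, p3, p4, p5⟩ := it_c_aux_pow hA
  have key : itVal (itcH g) f g - itVal (itcH g) f' g = (f.Y - f'.Y) - 2 * (g.X * (f.B - f'.B)) := by
    simp only [itVal, itcH]; ring
  rw [key]
  refine (it_c_aux_sub nY (it_c_aux_two (it_c_aux_m2 gX nB))).trans ?_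
  refine le_trans (le_of_eq ?_) (it_c_aux_fin (A := A) (u := 0) (v := 0) (cE := 1 + 2 * A) (cu := 0) (cv := 0) hE hE hE le_rfl le_rfl (by linarith))
  ring

theorem it_c_pz_xq (fr : ItCFz A e0 et E f f' g μ μ') : |itVal (itcxq g μ) f g - itVal (itcxq g μ') f' g| ≤ 100 * A ^ 6 * E := by
  obtain ⟨hA, he0, het, hE, h0t, ⟨gX, gB, gP, gY, gN, gD⟩, ⟨dX, dB, dP, dY, dN, dD⟩, ⟨nX, nB, nP, nY, nN, nD⟩, ⟨mth, mr, mk⟩,
    ⟨mth', mr', mk'⟩, dth, dr⟩ := fr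
  have hA0 : 0 ≤ A := by linarith
  obtain ⟨p0, p1, p2, p3, p4, p5⟩ := it_c_aux_pow hA
  have key : itVal (itcxq g μ) f g - itVal (itcxq g μ') f' g =
      (μ.th - μ'.th) * ((f.N - g.N) - g.P * (f.X - g.X)) - (μ.r - μ'.r) * ((f.Y - g.Y) - 2 * (g.X * (f.B - g.B)))
      + (f.D - f'.D) - g.P * (f.B - f'.B) + μ'.th * ((f.N - f'.N) - g.P * (f.X - f'.X))
      - μ'.r * ((f.Y - f'.Y) - 2 * (g.X * (f.B - f'.B))) := by
    simp only [itVal, itcxq]; ring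
  rw [key]
  refine (it_c_aux_sub (it_c_aux_add (it_c_aux_sub (it_c_aux_add (it_c_aux_sub
    (it_c_aux_m2 dth (it_c_aux_sub dN (it_c_aux_m2 gP dX))) (it_c_aux_m2 dr (it_c_aux_sub dY (it_c_aux_two (it_c_aux_m2 gX dB))))) nD)
    (it_c_aux_m2 gP nB)) (it_c_aux_m2 mth' (it_c_aux_sub nN (it_c_aux_m2 gP nX))))
    (it_c_aux_m2 mr' (it_c_aux_sub nY (it_c_aux_two (it_c_aux_m2 gX nB))))).trans ?_
  refine le_trans (le_of_eq ?_) (it_c_aux_fin (A := A) (u := 0) (cE := 1 + A + A * (1 + A) + A * (1 + 2 * A)) (cu := 0)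
    (cv := (1 + A) + (1 + 2 * A)) hE hE h0t le_rfl (by positivity) (by linarith))
  ring

theorem it_c_pz_xl (fr : ItCFz A e0 et E f f' g μ μ') : |itVal (itcxl μ) f g - itVal (itcxl μ') f' g| ≤ 100 * A ^ 6 * E := by
  obtain ⟨hA, he0, het, hE, h0t, ⟨gX, gB, gP, gY, gN, gD⟩, ⟨dX, dB, dP, dY, dN, dD⟩, ⟨nX, nB, nP, nY, nN, nD⟩, ⟨mth, mr, mk⟩,
    ⟨mth', mr', mk'⟩, dth, dr⟩ := fr
  have hA0 : 0 ≤ A := by linarith
  obtain ⟨p0, p1, p2, p3, p4, p5⟩ := it_c_aux_pow hA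
  have key : itVal (itcxl μ) f g - itVal (itcxl μ') f' g =
      (μ.th - μ'.th) * (f.N - g.N) - (μ.r - μ'.r) * (f.B - g.B) - (μ.r - μ'.r) * (μ.th * (f.X - g.X)) - μ'.r * ((μ.th - μ'.th) * (f.X - g.X))
      + (f.D - f'.D) + μ'.th * (f.N - f'.N) - μ'.r * (f.B - f'.B) - μ'.r * (μ'.th * (f.X - f'.X)) := by
    simp only [itVal, itcxl]; ring
  rw [key]
  refine (it_c_aux_sub (it_c_aux_sub (it_c_aux_add (it_c_aux_add (it_c_aux_sub (it_c_aux_sub (it_c_aux_sub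
    (it_c_aux_m2 dth dN) (it_c_aux_m2 dr dB)) (it_c_aux_m2 dr (it_c_aux_m2 mth dX))) (it_c_aux_m2 mr' (it_c_aux_m2 dth dX))) nD)
    (it_c_aux_m2 mth' nN)) (it_c_aux_m2 mr' nB)) (it_c_aux_m2 mr' (it_c_aux_m2 mth' nX))).trans ?_
  refine le_trans (le_of_eq ?_) (it_c_aux_fin (A := A) (u := 0) (cE := 1 + 2 * A + A ^ 2) (cu := 0)
    (cv := 2 + 2 * A) hE hE h0t le_rfl (by positivity) (by linarith))
  ring

theorem it_c_pz_be (fr : ItCFz A e0 et E f f' g μ μ') (dk : |μ.k - μ'.k| ≤ et) : |μ.be - μ'.be| ≤ et + (et * A + A * et) ∧ |μ'.be| ≤ A + A * A := by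
  obtain ⟨hA, he0, het, hE, h0t, -, -, -, ⟨mth, mr, mk⟩, ⟨mth', mr', mk'⟩, dth, dr⟩ := fr
  constructor
  · have key : μ.be - μ'.be = (μ.r - μ'.r) - ((μ.th - μ'.th) * μ.k + μ'.th * (μ.k - μ'.k)) := by
      simp only [ItMk.be]; ring
    rw [key]
    exact it_c_aux_sub dr (it_c_aux_add (it_c_aux_m2 dth mk) (it_c_aux_m2 mth' dk))
  · exact it_c_aux_sub mr' (it_c_aux_m2 mth' mk')

theorem it_c_pz_L (fr : ItCFz A e0 et E f f' g μ μ') (dk : |μ.k - μ'.k| ≤ et) :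
    |itVal (itcL μ) f g - itVal (itcL μ') f' g| ≤ 100 * A ^ 6 * E := by
  obtain ⟨dbe, bbe⟩ := it_c_pz_be fr dk
  obtain ⟨hA, he0, het, hE, h0t, ⟨gX, gB, gP, gY, gN, gD⟩, ⟨dX, dB, dP, dY, dN, dD⟩, ⟨nX, nB, nP, nY, nN, nD⟩, ⟨mth, mr, mk⟩,
    ⟨mth', mr', mk'⟩, dth, dr⟩ := fr
  have hA0 : 0 ≤ A := by linarith
  obtain ⟨p0, p1, p2, p3, p4, p5⟩ := it_c_aux_pow hA
  have key : itVal (itcL μ) f g - itVal (itcL μ') f' g =
      -(2 * ((μ.be - μ'.be) * (f.X - g.X))) + 2 * ((μ.k - μ'.k) * (f.B - g.B))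
      + (f.P - f'.P) - 2 * (μ'.be * (f.X - f'.X)) + 2 * (μ'.k * (f.B - f'.B)) := by
    simp only [itVal, itcL]; ring
  rw [key]
  refine (it_c_aux_add (it_c_aux_sub (it_c_aux_add (it_c_aux_add (it_c_aux_neg (it_c_aux_two (it_c_aux_m2 dbe dX)))
    (it_c_aux_two (it_c_aux_m2 dk dB))) nP) (it_c_aux_two (it_c_aux_m2 bbe nX))) (it_c_aux_two (it_c_aux_m2 mk' nB))).trans ?_
  refine le_trans (le_of_eq ?_) (it_c_aux_fin (A := A) (u := 0) (cE := 1 + 2 * (A + A ^ 2) + 2 * A) (cu := 0)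
    (cv := 2 * (1 + 2 * A) + 2) hE hE h0t le_rfl (by positivity) (by linarith))
  ring

theorem it_c_pz_G2 (fr : ItCFz A e0 et E f f' g μ μ') (dk : |μ.k - μ'.k| ≤ et) :
    |itVal (itcG2 g μ) f g - itVal (itcG2 g μ') f' g| ≤ 100 * A ^ 6 * E := by
  obtain ⟨hA, he0, het, hE, h0t, ⟨gX, gB, gP, gY, gN, gD⟩, ⟨dX, dB, dP, dY, dN, dD⟩, ⟨nX, nB, nP, nY, nN, nD⟩, ⟨mth, mr, mk⟩,
    ⟨mth', mr', mk'⟩, dth, dr⟩ := fr
  have hA0 : 0 ≤ A := by linarith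
  obtain ⟨p0, p1, p2, p3, p4, p5⟩ := it_c_aux_pow hA
  have key : itVal (itcG2 g μ) f g - itVal (itcG2 g μ') f' g =
      -((μ.k - μ'.k) * ((f.Y - g.Y) - 2 * (g.X * (f.B - g.B))))
      + (f.N - f'.N) - g.P * (f.X - f'.X) - μ'.k * ((f.Y - f'.Y) - 2 * (g.X * (f.B - f'.B))) := by
    simp only [itVal, itcG2]; ring
  rw [key]
  refine (it_c_aux_sub (it_c_aux_sub (it_c_aux_add (it_c_aux_neg (it_c_aux_m2 dk (it_c_aux_sub dY (it_c_aux_two (it_c_aux_m2 gX dB))))) nN)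
    (it_c_aux_m2 gP nX)) (it_c_aux_m2 mk' (it_c_aux_sub nY (it_c_aux_two (it_c_aux_m2 gX nB))))).trans ?_
  refine le_trans (le_of_eq ?_) (it_c_aux_fin (A := A) (u := 0) (cE := 1 + A + A * (1 + 2 * A)) (cu := 0)
    (cv := 1 + 2 * A) hE hE h0t le_rfl (by positivity) (by linarith))
  ring

theorem it_c_pz_G3 (fr : ItCFz A e0 et E f f' g μ μ') (dk : |μ.k - μ'.k| ≤ et) :
    |itVal (itcG3 g μ) f g - itVal (itcG3 g μ') f' g| ≤ 100 * A ^ 6 * E := by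
  obtain ⟨dbe, bbe⟩ := it_c_pz_be fr dk
  obtain ⟨hA, he0, het, hE, h0t, ⟨gX, gB, gP, gY, gN, gD⟩, ⟨dX, dB, dP, dY, dN, dD⟩, ⟨nX, nB, nP, nY, nN, nD⟩, ⟨mth, mr, mk⟩,
    ⟨mth', mr', mk'⟩, dth, dr⟩ := fr
  have hA0 : 0 ≤ A := by linarith
  obtain ⟨p0, p1, p2, p3, p4, p5⟩ := it_c_aux_pow hA
  have key : itVal (itcG3 g μ) f g - itVal (itcG3 g μ') f' g =
      -((μ.be - μ'.be) * ((f.Y - g.Y) - 2 * (g.X * (f.B - g.B))))
      + (f.D - f'.D) - g.P * (f.B - f'.B) - μ'.be * ((f.Y - f'.Y) - 2 * (g.X * (f.B - f'.B))) := by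
    simp only [itVal, itcG3]; ring
  rw [key]
  refine (it_c_aux_sub (it_c_aux_sub (it_c_aux_add (it_c_aux_neg (it_c_aux_m2 dbe (it_c_aux_sub dY (it_c_aux_two (it_c_aux_m2 gX dB))))) nD)
    (it_c_aux_m2 gP nB)) (it_c_aux_m2 bbe (it_c_aux_sub nY (it_c_aux_two (it_c_aux_m2 gX nB))))).trans ?_
  refine le_trans (le_of_eq ?_) (it_c_aux_fin (A := A) (u := 0) (cE := 1 + A + (A + A ^ 2) * (1 + 2 * A)) (cu := 0)
    (cv := (1 + 2 * A) * (1 + 2 * A)) hE hE h0t le_rfl (by positivity) (by linarith))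
  ring

theorem it_c_pz_Ga (fr : ItCFz A e0 et E f f' g μ μ') : |itVal (itcGa μ) f g - itVal (itcGa μ') f' g| ≤ 100 * A ^ 6 * E := by
  obtain ⟨hA, he0, het, hE, h0t, ⟨gX, gB, gP, gY, gN, gD⟩, ⟨dX, dB, dP, dY, dN, dD⟩, ⟨nX, nB, nP, nY, nN, nD⟩, ⟨mth, mr, mk⟩,
    ⟨mth', mr', mk'⟩, dth, dr⟩ := fr
  have hA0 : 0 ≤ A := by linarith
  obtain ⟨p0, p1, p2, p3, p4, p5⟩ := it_c_aux_pow hA
  have key : itVal (itcGa μ) f g - itVal (itcGa μ') f' g = -((μ.r - μ'.r) * (f.X - g.X)) + (f.N - f'.N) - μ'.r * (f.X - f'.X) := by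
    simp only [itVal, itcGa]; ring
  rw [key]
  refine (it_c_aux_sub (it_c_aux_add (it_c_aux_neg (it_c_aux_m2 dr dX)) nN) (it_c_aux_m2 mr' nX)).trans ?_
  refine le_trans (le_of_eq ?_) (it_c_aux_fin (A := A) (u := 0) (cE := 1 + A) (cu := 0) (cv := 1) hE hE h0t le_rfl (by norm_num) (by linarith))
  ring

theorem it_c_pz_Gb (fr : ItCFz A e0 et E f f' g μ μ') : |itVal (itcGb μ) f g - itVal (itcGb μ') f' g| ≤ 100 * A ^ 6 * E := by
  obtain ⟨hA, he0, het, hE, h0t, ⟨gX, gB, gP, gY, gN, gD⟩, ⟨dX, dB, dP, dY, dN, dD⟩, ⟨nX, nB, nP, nY, nN, nD⟩, ⟨mth, mr, mk⟩,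
    ⟨mth', mr', mk'⟩, dth, dr⟩ := fr
  have hA0 : 0 ≤ A := by linarith
  obtain ⟨p0, p1, p2, p3, p4, p5⟩ := it_c_aux_pow hA
  have key : itVal (itcGb μ) f g - itVal (itcGb μ') f' g = -((μ.r - μ'.r) * (f.B - g.B)) + (f.D - f'.D) - μ'.r * (f.B - f'.B) := by
    simp only [itVal, itcGb]; ring
  rw [key]
  refine (it_c_aux_sub (it_c_aux_add (it_c_aux_neg (it_c_aux_m2 dr dB)) nD) (it_c_aux_m2 mr' nB)).trans ?_
  refine le_trans (le_of_eq ?_) (it_c_aux_fin (A := A) (u := 0) (cE := 1 + A) (cu := 0) (cv := 1) hE hE h0t le_rfl (by norm_num) (by linarith))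
  ring

end zside

end Claimed.Agent.R256
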