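-- KEEP
import Claimed.Agent.R256.Int.Cost.Defs
import Claimed.Agent.R255.Iso.Grid

/-!
# Row 256, Sec. 5, block COST: THE KIT      (helper267; prefix `it_c_`)

 `it_c_four`    the four-term inequality (05 l.330)
 `it_c_ent_le`  expectation from an upper score and a capacity
 `it_c_rd_le`   a tuple of readings each of which is fixed within `R δ^s` by the conditioning
 `it_c_small`, `it_c_lg_le`   `n log(⌈4R⌉+1) ≤ c1 + c2 acc L ≤ e L`
 structural facts: nested names, `f0` from `F_p`, frozen mark from `Ω`, `Ω` from `𝒟`.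
-/

set_option autoImplicit false

namespace Claimed.Agent.R256

open Claimed.Agent.R255
open Claimed.Agent.R255.FLaw (pair)
open scoped BigOperators
open Classical

section law
variable {Ω : Type} [Fintype Ω] {α β γ ο υ : Type}

/-- adjoining `Ω` to the conditioning costs at most `H(Ω | B, C)` -/
theorem it_c_adjoin (P : FLaw Ω) (A : Ω → α) (B : Ω → β) (C : Ω → γ) (Om : Ω → ο) :
    P.miC A B (pair C Om) ≤ P.miC A B C + P.entC Om (pair B C) := by
  unfold FLaw.miC FLaw.entC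
  have sm := ent_submod P A Om C
  have m1 : P.ent (pair (pair A B) C) ≤ P.ent (pair (pair A B) (pair C Om)) :=
    ent_mono_ker P _ _ fun ω ω' _ _ h => by
      simp only [pair, Prod.mk.injEq] at h ⊢; tauto
  have k1 : P.ent (pair (pair A Om) C) = P.ent (pair A (pair C Om)) :=
    ent_congr_ker P _ _ fun ω ω' _ _ => by simp only [pair, Prod.mk.injEq]; tauto
  have k2 : P.ent (pair Om C) = P.ent (pair C Om) := ent_pair_comm P _ _
  have k3 : P.ent (pair Om (pair B C)) = P.ent (pair B (pair C Om)) :=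
    ent_congr_ker P _ _ fun ω ω' _ _ => by simp only [pair, Prod.mk.injEq]; tauto
  linarith

/-- THE FOUR-TERM INEQUALITY (05 l.330) -/
theorem it_c_four (P : FLaw Ω) (A : Ω → α) (B : Ω → β) (C : Ω → γ) (Om : Ω → ο) (U : Ω → υ) :
    P.entC U (pair C Om) - P.entC Om (pair B C) - P.entC U (pair A (pair C Om)) - P.entC U (pair B (pair C Om))
      ≤ P.miC A B C := by
  have k1 := rep_info_of_common P U A B (pair C Om)
  have k2 := it_c_adjoin P A B C Om
  linarith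

/-- expectation from an upper score and a capacity -/
theorem it_c_ent_le (P : FLaw Ω) (X : Ω → α) (Y : Ω → β) {c ζ M : ℝ} (hc : 0 ≤ c)
    (hM : ∃ S : Finset α, (S.card : ℝ) ≤ M ∧ ∀ ω, P.p ω ≠ 0 → X ω ∈ S)
    (h : P.pr (fun ω => c < P.surC X Y ω) ≤ ζ) : P.entC X Y ≤ Real.log 2 + c + ζ * Real.log M := by
  have h1 : P.NVal (fun ω => ¬ c < P.surC X Y ω) X Y (Real.exp c) :=
    ent_bin_count P _ Y X (fun ω _ hE => not_lt.1 hE)
  have := ent_ambiguity P Y X (fun ω => c < P.surC X Y ω) (N := Real.exp c) (Real.one_le_exp hc) h1 hM h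
  rwa [Real.log_exp] at this

/-- `H(X | Z) ≤ H(Y | Z) + H(X | Y, Z)` -/
theorem it_c_via (P : FLaw Ω) (X : Ω → α) (Y : Ω → β) (Z : Ω → γ) :
    P.entC X Z ≤ P.entC Y Z + P.entC X (pair Y Z) := by
  have h1 : P.entC X Z ≤ P.entC (pair Y X) Z := ent_entC_mono P _ _ _ fun ω ω' _ _ h _ => (Prod.ext_iff.1 h).2
  have h2 := ent_entC_chain P Y X Z
  linarith

end law

/-! ## smallness -/

theorem it_c_small (c1 c2 e : ℝ) (he : 0 < e) : ∃ acc0 : ℝ, 0 < acc0 ∧ acc0 ≤ 1 ∧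
    ∀ acc δ : ℝ, 0 < δ → δ < acc → acc ≤ acc0 → c1 + c2 * acc * lg δ ≤ e * lg δ := by
  refine ⟨min (min 1 (e / (2 * (|c2| + 1)))) (Real.exp (-(2 * |c1| / e + 1))), ?_, ?_, ?_⟩
  · have : 0 < e / (2 * (|c2| + 1)) := by positivity
    exact lt_min (lt_min one_pos this) (Real.exp_pos _)
  · exact (min_le_left _ _).trans (min_le_left _ _)
  · intro acc δ hδ hδa ha
    have a1 : acc ≤ e / (2 * (|c2| + 1)) := ha.trans ((min_le_left _ _).trans (min_le_right _ _))
    have a2 : acc ≤ Real.exp (-(2 * |c1| / e + 1)) := ha.trans (min_le_right _ _)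
    have hL : 2 * |c1| / e + 1 ≤ lg δ := by
      unfold lg
      rw [one_div, Real.log_inv]
      have : Real.log δ ≤ -(2 * |c1| / e + 1) := by
        rw [← Real.log_exp (-(2 * |c1| / e + 1))]
        exact Real.log_le_log hδ (hδa.le.trans a2)
      linarith
    have hL0 : 0 < lg δ := by
      have : 0 ≤ 2 * |c1| / e := by positivity
      linarith
    have b1 : c1 ≤ e / 2 * lg δ := by
      have : 2 * |c1| / e ≤ lg δ := by linarith
      rw [div_le_iff₀ he] at this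
      have := le_abs_self c1
      nlinarith
    have hacc : 0 < acc := hδ.trans hδa
    have b2 : c2 * acc ≤ e / 2 := by
      have h3 : |c2| * acc ≤ (|c2| + 1) * (e / (2 * (|c2| + 1))) := by
        have := abs_nonneg c2
        exact mul_le_mul (by linarith) a1 hacc.le (by linarith)
      have h4 : (|c2| + 1) * (e / (2 * (|c2| + 1))) = e / 2 := by
        have := abs_nonneg c2
        field_simp
      have h5 : c2 * acc ≤ |c2| * acc := mul_le_mul_of_nonneg_right (le_abs_self c2) hacc.le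
      linarith
    have b3 : c2 * acc * lg δ ≤ e / 2 * lg δ := mul_le_mul_of_nonneg_right b2 hL0.le
    linarith

namespace Tan
variable (T : Tan)

theorem it_c_L_eq : T.L = -Real.log T.δ := by
  unfold Tan.L lg
  rw [one_div, Real.log_inv]

theorem it_c_A_ge (h0 : 0 < T.δ) (h1 : T.δ < 1) (a : ItPar) (hB : 1 ≤ a.B0) (acc : ℝ) (hacc : 0 ≤ acc) :
    a.B0 + 1 ≤ T.cA a acc ∧ T.δ ^ (-acc) ≤ T.cA a acc ∧ 1 ≤ T.δ ^ (-acc) := by
  have h : 1 ≤ T.δ ^ (-acc) := Real.one_le_rpow_of_pos_of_le_one_of_nonpos h0 h1.le (by linarith)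
  unfold Tan.cA
  refine ⟨?_, ?_, h⟩
  · nlinarith
  · nlinarith

/-- one list costs `log 402 + 6 log (B0 + 1) + 6 acc L` -/
theorem it_c_lg_le (h0 : 0 < T.δ) (h1 : T.δ < 1) (a : ItPar) (hB : 1 ≤ a.B0) (acc : ℝ) (hacc : 0 ≤ acc) :
    0 ≤ T.cLg a acc ∧ T.cLg a acc ≤ Real.log 402 + 6 * Real.log (a.B0 + 1) + 6 * acc * T.L := by
  obtain ⟨hA1, -, hd⟩ := T.it_c_A_ge h0 h1 a hB acc hacc
  have hA : 1 ≤ T.cA a acc := by linarith
  have hA6 : 1 ≤ T.cA a acc ^ 6 := one_le_pow₀ hA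
  constructor
  · unfold Tan.cLg
    apply Real.log_nonneg
    have : (0 : ℝ) ≤ (⌈4 * T.cR a acc⌉₊ : ℝ) := Nat.cast_nonneg _
    linarith
  · have hR : 0 ≤ 4 * T.cR a acc := by unfold Tan.cR; positivity
    have c1 : (⌈4 * T.cR a acc⌉₊ : ℝ) + 1 ≤ 402 * T.cA a acc ^ 6 := by
      have := (Nat.ceil_lt_add_one hR).le
      unfold Tan.cR at this ⊢
      linarith
    have c2 : T.cLg a acc ≤ Real.log (402 * T.cA a acc ^ 6) := by
      unfold Tan.cLg
      apply Real.log_le_log _ c1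
      have : (0 : ℝ) ≤ (⌈4 * T.cR a acc⌉₊ : ℝ) := Nat.cast_nonneg _
      linarith
    have c3 : Real.log (402 * T.cA a acc ^ 6) = Real.log 402 + 6 * Real.log (T.cA a acc) := by
      rw [Real.log_mul (by norm_num) (by positivity), Real.log_pow]
      norm_num
    have c4 : Real.log (T.cA a acc) = acc * T.L + Real.log (a.B0 + 1) := by
      unfold Tan.cA
      rw [Real.log_mul (by positivity) (by linarith), Real.log_rpow h0, T.it_c_L_eq]
      ring
    rw [c3, c4] at c2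
    linarith

/-! ## structure of the names -/

theorem it_c_trep_of_cell {δ s x y : ℝ} (h : tcell δ s x = tcell δ s y) : trep δ s x = trep δ s y := by
  unfold trep; rw [h]

theorem it_c_cell_nest {δ : ℝ} (h0 : 0 < δ) (h1 : δ < 1) {p q x y : ℝ} (hpq : p ≤ q) (h : tcell δ q x = tcell δ q y) :
    tcell δ p x = tcell δ p y := by
  rw [ig_cell_nest δ p q x h0 h1 hpq, ig_cell_nest δ p q y h0 h1 hpq, h]

theorem it_c_itR_of_itF {δ s : ℝ} {f f' : ItPh} (h : itF δ s f = itF δ s f') : itR δ s f = itR δ s f' := by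
  simp only [itF, Prod.mk.injEq] at h
  obtain ⟨⟨a1, a2, a3⟩, a4, a5, a6⟩ := h
  simp only [itR, it_c_trep_of_cell a1, it_c_trep_of_cell a2, it_c_trep_of_cell a3, it_c_trep_of_cell a4,
    it_c_trep_of_cell a5, it_c_trep_of_cell a6]

theorem it_c_f0_of_Fn {p : ℝ} {ω ω' : T.Ω} (h : T.Fn p ω = T.Fn p ω') : T.f0 p ω = T.f0 p ω' :=
  it_c_itR_of_itF h

theorem it_c_Fn_nest (h0 : 0 < T.δ) (h1 : T.δ < 1) {p q : ℝ} (hpq : p ≤ q) {ω ω' : T.Ω} (h : T.Fn q ω = T.Fn q ω') :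
    T.Fn p ω = T.Fn p ω' := by
  simp only [Tan.Fn, itF, Prod.mk.injEq] at h ⊢
  obtain ⟨⟨a1, a2, a3⟩, a4, a5, a6⟩ := h
  exact ⟨⟨it_c_cell_nest h0 h1 hpq a1, it_c_cell_nest h0 h1 hpq a2, it_c_cell_nest h0 h1 hpq a3⟩,
    it_c_cell_nest h0 h1 hpq a4, it_c_cell_nest h0 h1 hpq a5, it_c_cell_nest h0 h1 hpq a6⟩

theorem it_c_Xn_of_Fn {p : ℝ} {ω ω' : T.Ω} (h : T.Fn p ω = T.Fn p ω') : T.Xn p ω = T.Xn p ω' := by
  simp only [Tan.Fn, itF, Prod.mk.injEq] at h
  exact h.1.1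

theorem it_c_cMk_of_cOm {kk : Bool} {t : ℝ} {ω ω' : T.Ω} (h : T.cOm kk t ω = T.cOm kk t ω') : T.cMk kk t ω = T.cMk kk t ω' := by
  simp only [Tan.cOm, Prod.mk.injEq] at h
  obtain ⟨a1, a2, a3⟩ := h
  cases kk with
  | false => simp [Tan.cMk, it_c_trep_of_cell a1, it_c_trep_of_cell a2]
  | true =>
    simp only [if_true] at a3
    simp only [Tan.cMk, it_c_trep_of_cell a1, it_c_trep_of_cell a2, it_c_trep_of_cell a3]

theorem it_c_mrk_of_Dd {M : ℕ} (hM : 0 < M) {ω ω' : T.Ω} (h : T.Dd M ω = T.Dd M ω') : T.mrk 0 ω = T.mrk 0 ω' := by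
  simp only [Tan.Dd, Prod.mk.injEq] at h
  exact congrFun h.2 ⟨0, hM⟩

theorem it_c_cOm_of_Dd {M : ℕ} (hM : 0 < M) (kk : Bool) (t : ℝ) {ω ω' : T.Ω} (h : T.Dd M ω = T.Dd M ω') :
    T.cOm kk t ω = T.cOm kk t ω' := by
  simp only [Tan.cOm, T.it_c_mrk_of_Dd hM h]

/-- a tuple of readings each of which is fixed within `R δ^s` by the conditioning -/
theorem it_c_rd_le (h0 : 0 < T.δ) (h1 : T.δ < 1) {α : Type} (A : T.Ω → α) (p s R : ℝ) (hs : 0 ≤ s) (U : List (T.Ω → ItPh))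
    (h : ∀ u ∈ U, ∀ ω₀, ∃ y₀ : ℝ, ∀ ω, T.P.p ω ≠ 0 → A ω = A ω₀ → |itVal (u ω) (T.F ω) (T.f0 p ω) - y₀| ≤ R * T.δ ^ s) :
    T.P.entC (T.rd p s U) A ≤ U.length * Real.log ((⌈4 * R⌉₊ : ℝ) + 1) := by
  induction U with
  | nil =>
    have : T.P.entC (T.rd p s []) A = 0 := ent_entC_eq_zero _ _ _ fun _ _ _ _ _ => rfl
    simp [this]
  | cons u U ih =>
    have e1 : T.P.entC (T.rd p s (u :: U)) A
        ≤ T.P.entC (pair (fun ω => tcell T.δ s (itVal (u ω) (T.F ω) (T.f0 p ω))) (T.rd p s U)) A :=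
      ent_entC_mono _ _ _ _ fun ω ω' _ _ h _ => by
        simp only [pair, Prod.mk.injEq] at h
        simp only [Tan.rd, List.map_cons, List.cons.injEq]
        exact ⟨h.1, h.2⟩
    have e2 := ent_entC_pair_le_add T.P (fun ω => tcell T.δ s (itVal (u ω) (T.F ω) (T.f0 p ω))) (T.rd p s U) A
    have e3 := tl_nval_cell T.P A (fun ω => itVal (u ω) (T.F ω) (T.f0 p ω)) h0 h1 hs (h u (List.mem_cons_self))
    have e4 := ih fun u' hu' => h u' (List.mem_cons_of_mem _ hu')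
    rw [List.length_cons]
    push_cast
    linarith

end Tan

end Claimed.Agent.R256
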