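-- KEEP
import Claimed.Agent.R256.Int.Cost.Kit

/-!
# Row 256, Sec. 5, block COST: THE ABSTRACT LAYER LEMMA and the frames      (helper267; prefix `it_c_`)

 `it_c_layer`   4-term inequality on a layer: `hh M p q U [] - e1 - 2 |U| log(⌈4R⌉+1) ≤ I(F_q ; O_l | C_*, F_p)`
 `it_c_yside`, `it_c_zside`   glue: a pointwise approximant by a function of (display, parent) resp. (child cell, parent, frozen mark)
 `it_c_Om_le`   recovery of `Ω` from the output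
 `it_c_frame`, `it_c_framez`, `it_c_up`   the pointwise frames from `T.Adm`
-/

set_option autoImplicit false

namespace Claimed.Agent.R256

open Claimed.Agent.R255
open Claimed.Agent.R255.FLaw (pair)
open scoped BigOperators
open Classical

namespace Tan
variable (T : Tan)

/-- THE LAYER LEMMA -/
theorem it_c_layer (h0 : 0 < T.δ) (h1 : T.δ < 1) (M : ℕ) (hM : 0 < M) (l p q R : ℝ) (hq : 0 ≤ q) (kk : Bool) (t : ℝ)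
    (U : List (T.Ω → ItPh)) (e1 : ℝ)
    (hOm : T.P.entC (T.cOm kk t) (pair (T.O l) (T.cC p)) ≤ e1)
    (hA : ∀ u ∈ U, ∀ ω₀, ∃ y₀ : ℝ, ∀ ω, T.P.p ω ≠ 0 →
      pair (T.Fn q) (pair (T.cC p) (T.cOm kk t)) ω = pair (T.Fn q) (pair (T.cC p) (T.cOm kk t)) ω₀ →
      |itVal (u ω) (T.F ω) (T.f0 p ω) - y₀| ≤ R * T.δ ^ q)
    (hB : ∀ u ∈ U, ∀ ω₀, ∃ y₀ : ℝ, ∀ ω, T.P.p ω ≠ 0 →
      pair (T.O l) (pair (T.cC p) (T.cOm kk t)) ω = pair (T.O l) (pair (T.cC p) (T.cOm kk t)) ω₀ →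
      |itVal (u ω) (T.F ω) (T.f0 p ω) - y₀| ≤ R * T.δ ^ q) :
    T.hh M p q U [] - e1 - 2 * (U.length * Real.log ((⌈4 * R⌉₊ : ℝ) + 1))
      ≤ T.P.miC (T.Fn q) (T.O l) (pair T.Cs (T.Fn p)) := by
  have k := it_c_four T.P (T.Fn q) (T.O l) (T.cC p) (T.cOm kk t) (T.rd p q U)
  have kA := T.it_c_rd_le h0 h1 _ p q R hq U hA
  have kB := T.it_c_rd_le h0 h1 _ p q R hq U hB
  have k0 : T.hh M p q U [] ≤ T.P.entC (T.rd p q U) (pair (T.cC p) (T.cOm kk t)) := by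
    unfold Tan.hh
    refine ent_entC_anti _ _ _ _ fun ω ω' _ _ h => ?_
    simp only [pair, Tan.base, Prod.mk.injEq] at h
    obtain ⟨-, hF, hD⟩ := h
    have hC : T.Cs ω = T.Cs ω' := by
      simp only [Tan.Dd, Prod.mk.injEq] at hD
      exact hD.1
    simp only [pair, Tan.cC, Prod.mk.injEq]
    exact ⟨⟨hC, hF⟩, T.it_c_cOm_of_Dd hM kk t hD⟩
  have : T.P.miC (T.Fn q) (T.O l) (T.cC p) = T.P.miC (T.Fn q) (T.O l) (pair T.Cs (T.Fn p)) := rfl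
  linarith

/-- a decoder of the display (the clause `AdmG.dfun` holds on the support only) -/
theorem it_c_dec (l : ℝ)
    (hd : ∀ ω ω', T.P.p ω ≠ 0 → T.P.p ω' ≠ 0 → T.O l ω = T.O l ω' → T.Cs ω = T.Cs ω' → T.dsp l ω = T.dsp l ω') :
    ∃ dec : T.ο → T.γ → ItDsp, ∀ ω, T.P.p ω ≠ 0 → T.dsp l ω = dec (T.O l ω) (T.Cs ω) := by
  refine ⟨fun o c => if h : ∃ ω, T.P.p ω ≠ 0 ∧ T.O l ω = o ∧ T.Cs ω = c then T.dsp l h.choose else ⟨0, 0, 0, 0, 0, 0, 0, 0⟩,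
    fun ω hω => ?_⟩
  have hex : ∃ ω', T.P.p ω' ≠ 0 ∧ T.O l ω' = T.O l ω ∧ T.Cs ω' = T.Cs ω := ⟨ω, hω, rfl, rfl⟩
  show T.dsp l ω = dite _ _ _
  rw [dif_pos hex]
  obtain ⟨h1, h2, h3⟩ := hex.choose_spec
  exact hd ω _ hω h1 h2.symm h3.symm

/-- glue on the side of the output -/
theorem it_c_yside (l p : ℝ) {β : Type} (Z : T.Ω → β)
    (hd : ∀ ω ω', T.P.p ω ≠ 0 → T.P.p ω' ≠ 0 → T.O l ω = T.O l ω' → T.Cs ω = T.Cs ω' → T.dsp l ω = T.dsp l ω')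
    (u : T.Ω → ItPh) (Y : ItDsp → ItPh → ℝ) (r : ℝ)
    (h : ∀ ω, T.P.p ω ≠ 0 → |itVal (u ω) (T.F ω) (T.f0 p ω) - Y (T.dsp l ω) (T.f0 p ω)| ≤ r) :
    ∀ ω₀, ∃ y₀ : ℝ, ∀ ω, T.P.p ω ≠ 0 → pair (T.O l) (pair (T.cC p) Z) ω = pair (T.O l) (pair (T.cC p) Z) ω₀ →
      |itVal (u ω) (T.F ω) (T.f0 p ω) - y₀| ≤ r := by
  intro ω₀
  obtain ⟨dec, hdec⟩ := T.it_c_dec l hd
  refine ⟨Y (dec (T.O l ω₀) (T.Cs ω₀)) (T.f0 p ω₀), fun ω hω he => ?_⟩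
  simp only [pair, Tan.cC, Prod.mk.injEq] at he
  obtain ⟨hO, ⟨hC, hF⟩, -⟩ := he
  rw [← hO, ← hC, ← hdec ω hω, ← T.it_c_f0_of_Fn hF]
  exact h ω hω

/-- glue on the side of the child phase name -/
theorem it_c_zside (p q : ℝ) (kk : Bool) (t : ℝ) (u : T.Ω → ItPh) (Y : ItPh → ItPh → ItMk → ℝ) (r : ℝ)
    (h : ∀ ω, T.P.p ω ≠ 0 → |itVal (u ω) (T.F ω) (T.f0 p ω) - Y (itR T.δ q (T.F ω)) (T.f0 p ω) (T.cMk kk t ω)| ≤ r) :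
    ∀ ω₀, ∃ y₀ : ℝ, ∀ ω, T.P.p ω ≠ 0 →
      pair (T.Fn q) (pair (T.cC p) (T.cOm kk t)) ω = pair (T.Fn q) (pair (T.cC p) (T.cOm kk t)) ω₀ →
      |itVal (u ω) (T.F ω) (T.f0 p ω) - y₀| ≤ r := by
  intro ω₀
  refine ⟨Y (itR T.δ q (T.F ω₀)) (T.f0 p ω₀) (T.cMk kk t ω₀), fun ω hω he => ?_⟩
  simp only [pair, Tan.cC, Prod.mk.injEq] at he
  obtain ⟨hq, ⟨hC, hF⟩, hO⟩ := he
  have e1 : itR T.δ q (T.F ω) = itR T.δ q (T.F ω₀) := it_c_itR_of_itF hq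
  rw [← e1, ← T.it_c_f0_of_Fn hF, ← T.it_c_cMk_of_cOm hO]
  exact h ω hω

/-- recovery of `Ω` from the output -/
theorem it_c_Om_le (h0 : 0 < T.δ) (h1 : T.δ < 1) (l p t R : ℝ) (ht : 0 ≤ t) (kk : Bool)
    (hd : ∀ ω ω', T.P.p ω ≠ 0 → T.P.p ω' ≠ 0 → T.O l ω = T.O l ω' → T.Cs ω = T.Cs ω' → T.dsp l ω = T.dsp l ω') (ρ : ItDsp → ℝ)
    (hth : ∀ ω, T.P.p ω ≠ 0 → |(T.mrk 0 ω).th - (T.dsp l ω).th| ≤ R * T.δ ^ t)
    (hr : ∀ ω, T.P.p ω ≠ 0 → |(T.mrk 0 ω).r - ρ (T.dsp l ω)| ≤ R * T.δ ^ t)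
    (hk : kk = true → ∀ ω, T.P.p ω ≠ 0 → |(T.mrk 0 ω).k - (T.dsp l ω).b| ≤ R * T.δ ^ t) :
    T.P.entC (T.cOm kk t) (pair (T.O l) (T.cC p)) ≤ 3 * Real.log ((⌈4 * R⌉₊ : ℝ) + 1) := by
  obtain ⟨dec, hdec⟩ := T.it_c_dec l hd
  have hdd : ∀ ω ω₀, T.P.p ω ≠ 0 → pair (T.O l) (T.cC p) ω = pair (T.O l) (T.cC p) ω₀ → T.dsp l ω = dec (T.O l ω₀) (T.Cs ω₀) := by
    intro ω ω₀ hω he
    simp only [pair, Tan.cC, Prod.mk.injEq] at he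
    rw [← he.1, ← he.2.1]
    exact hdec ω hω
  have hlog : 0 ≤ Real.log ((⌈4 * R⌉₊ : ℝ) + 1) := by
    apply Real.log_nonneg
    have : (0 : ℝ) ≤ (⌈4 * R⌉₊ : ℝ) := Nat.cast_nonneg _
    linarith
  have e1 := tl_nval_cell T.P (pair (T.O l) (T.cC p)) (fun ω => (T.mrk 0 ω).th) (R := R) h0 h1 ht
    (fun ω₀ => ⟨(dec (T.O l ω₀) (T.Cs ω₀)).th, fun ω hω he => by rw [← hdd ω ω₀ hω he]; exact hth ω hω⟩)
  have e2 := tl_nval_cell T.P (pair (T.O l) (T.cC p)) (fun ω => (T.mrk 0 ω).r) (R := R) h0 h1 ht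
    (fun ω₀ => ⟨ρ (dec (T.O l ω₀) (T.Cs ω₀)), fun ω hω he => by rw [← hdd ω ω₀ hω he]; exact hr ω hω⟩)
  have e3 : T.P.entC (fun ω => if kk then tcell T.δ t (T.mrk 0 ω).k else 0) (pair (T.O l) (T.cC p))
      ≤ Real.log ((⌈4 * R⌉₊ : ℝ) + 1) := by
    cases kk with
    | false =>
      have : T.P.entC (fun ω => if false = true then tcell T.δ t (T.mrk 0 ω).k else 0) (pair (T.O l) (T.cC p)) = 0 :=
        ent_entC_eq_zero _ _ _ fun _ _ _ _ _ => by simp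
      rw [this]; exact hlog
    | true =>
      have := tl_nval_cell T.P (pair (T.O l) (T.cC p)) (fun ω => (T.mrk 0 ω).k) (R := R) h0 h1 ht
        (fun ω₀ => ⟨(dec (T.O l ω₀) (T.Cs ω₀)).b, fun ω hω he => by rw [← hdd ω ω₀ hω he]; exact hk rfl ω hω⟩)
      simpa using this
  have a1 := ent_entC_pair_le_add T.P (fun ω => tcell T.δ t (T.mrk 0 ω).th)
    (pair (fun ω => tcell T.δ t (T.mrk 0 ω).r) (fun ω => if kk then tcell T.δ t (T.mrk 0 ω).k else 0)) (pair (T.O l) (T.cC p))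
  have a2 := ent_entC_pair_le_add T.P (fun ω => tcell T.δ t (T.mrk 0 ω).r)
    (fun ω => if kk then tcell T.δ t (T.mrk 0 ω).k else 0) (pair (T.O l) (T.cC p))
  have a0 : T.cOm kk t = pair (fun ω => tcell T.δ t (T.mrk 0 ω).th)
    (pair (fun ω => tcell T.δ t (T.mrk 0 ω).r) (fun ω => if kk then tcell T.δ t (T.mrk 0 ω).k else 0)) := rfl
  rw [a0]
  linarith

/-! ## frames -/

theorem it_c_nrm_cBd {f : ItPh} {B : ℝ} (h : f.nrm ≤ B) : f.cBd B := by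
  unfold ItPh.nrm at h
  simp only [max_le_iff] at h
  obtain ⟨⟨⟨a1, a2⟩, a3, a4⟩, a5, a6⟩ := h
  exact ⟨a1, a2, a3, a4, a5, a6⟩

theorem it_c_cBd_mono {f : ItPh} {B B' : ℝ} (h : f.cBd B) (hB : B ≤ B') : f.cBd B' := by
  obtain ⟨a1, a2, a3, a4, a5, a6⟩ := h
  exact ⟨a1.trans hB, a2.trans hB, a3.trans hB, a4.trans hB, a5.trans hB, a6.trans hB⟩

theorem it_c_trep_bd {δ : ℝ} (h0 : 0 < δ) (h1 : δ < 1) {s x B : ℝ} (hs : 0 ≤ s) (hx : |x| ≤ B) : |trep δ s x| ≤ B + 1 := by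
  have e1 := tl_abs_sub_trep h0 s x
  have e2 : δ ^ s ≤ 1 := Real.rpow_le_one h0.le h1.le hs
  have e3 : |trep δ s x| ≤ |x| + |x - trep δ s x| := by
    have : trep δ s x = x - (x - trep δ s x) := by ring
    calc |trep δ s x| = |x - (x - trep δ s x)| := by rw [← this]
      _ ≤ |x| + |x - trep δ s x| := abs_sub _ _
  linarith

theorem it_c_itR_bd {δ : ℝ} (h0 : 0 < δ) (h1 : δ < 1) {s B : ℝ} {f : ItPh} (hs : 0 ≤ s) (hf : f.cBd B) : (itR δ s f).cBd (B + 1) := by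
  obtain ⟨a1, a2, a3, a4, a5, a6⟩ := hf
  exact ⟨it_c_trep_bd h0 h1 hs a1, it_c_trep_bd h0 h1 hs a2, it_c_trep_bd h0 h1 hs a3, it_c_trep_bd h0 h1 hs a4,
    it_c_trep_bd h0 h1 hs a5, it_c_trep_bd h0 h1 hs a6⟩

theorem it_c_itR_near {δ : ℝ} (h0 : 0 < δ) (s : ℝ) (f : ItPh) : f.cNear (itR δ s f) (δ ^ s) :=
  ⟨tl_abs_sub_trep h0 s _, tl_abs_sub_trep h0 s _, tl_abs_sub_trep h0 s _, tl_abs_sub_trep h0 s _,
    tl_abs_sub_trep h0 s _, tl_abs_sub_trep h0 s _⟩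

/-- from the accuracy `δ^(-acc) δ^u` of a display to `A δ^v`, `v ≤ u` -/
theorem it_c_up (h0 : 0 < T.δ) (h1 : T.δ < 1) (a : ItPar) (hB : 1 ≤ a.B0) {acc : ℝ} (hacc : 0 ≤ acc) {x u v : ℝ}
    (hx : x ≤ T.δ ^ (-acc) * T.δ ^ u) (huv : v ≤ u) : x ≤ T.cA a acc * T.δ ^ v := by
  obtain ⟨-, hA, hd⟩ := T.it_c_A_ge h0 h1 a hB acc hacc
  have e1 : T.δ ^ u ≤ T.δ ^ v := Real.rpow_le_rpow_of_exponent_ge h0 h1.le huv
  have e2 : 0 ≤ T.δ ^ u := (Real.rpow_pos_of_pos h0 u).le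
  exact hx.trans (mul_le_mul hA e1 e2 (by linarith))

variable {T}

/-- the basic consequences of admissibility -/
theorem it_c_adm_basic {a : ItPar} {pk : ItPk} {τ κ0 acc : ℝ} (hT : T.Adm a pk τ κ0 acc) : 0 < T.δ ∧ T.δ < 1 :=
  ⟨hT.t0.δ0, hT.t0.δ1⟩

/-- THE FRAME of a layer at a sample point -/
theorem it_c_frame {a : ItPar} (ha : a.Ok) {pk : ItPk} (hpk : pk.Ok) {τ κ0 acc : ℝ} (hacc : 0 ≤ acc)
    (hT : T.Adm a pk τ κ0 acc) {l p q : ℝ} (hl : l ∈ pk.Lam) (hp : 0 ≤ p) (hq2 : q ≤ 2 * p) (htl : q - p ≤ l)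
    {ω : T.Ω} (hω : T.P.p ω ≠ 0) :
    ItCFr (T.cA a acc) (T.δ ^ p) (T.δ ^ (q - p)) (T.δ ^ q) (T.F ω) (T.f0 p ω) (T.mrk 0 ω) (T.dsp l ω) := by
  obtain ⟨h0, h1⟩ := it_c_adm_basic hT
  have hB : 1 ≤ a.B0 := ha.2.2.2.2.2.2.2.2
  obtain ⟨hA1, hA2, hd⟩ := T.it_c_A_ge h0 h1 a hB acc hacc
  have hM : 0 < pk.M := by have := hpk.1; omega
  have D := hT.tg.dsp l hl ω hω
  have bF : (T.F ω).cBd a.B0 := it_c_nrm_cBd (hT.t0.bdF ω hω)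
  obtain ⟨m1, m2, m3⟩ := hT.t0.bdM ω hω 0 hM
  obtain ⟨s1, s2, s3, s4⟩ := D.bd
  refine ⟨by linarith, (Real.rpow_pos_of_pos h0 _).le, (Real.rpow_pos_of_pos h0 _).le, ?_, ?_, it_c_cBd_mono bF (by linarith),
    it_c_cBd_mono (it_c_itR_bd h0 h1 hp bF) hA1, it_c_itR_near h0 p _, ⟨by linarith, by linarith, by linarith⟩,
    s1.trans hA2, s2.trans hA2, s3.trans hA2, s4.trans hA2, T.it_c_up h0 h1 a hB hacc D.time htl⟩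
  · rw [← Real.rpow_add h0]
    exact Real.rpow_le_rpow_of_exponent_ge h0 h1.le (by linarith)
  · rw [← Real.rpow_add h0]
    exact le_of_eq (by congr 1; ring)

/-- THE FRAME on the side of `F_q` -/
theorem it_c_framez {a : ItPar} (ha : a.Ok) {pk : ItPk} (hpk : pk.Ok) {τ κ0 acc : ℝ} (hacc : 0 ≤ acc)
    (hT : T.Adm a pk τ κ0 acc) {p q : ℝ} (hp : 0 ≤ p) (hpq : p ≤ q) (kk : Bool) {ω : T.Ω} (hω : T.P.p ω ≠ 0) :
    ItCFz (T.cA a acc) (T.δ ^ p) (T.δ ^ (q - p)) (T.δ ^ q) (T.F ω) (itR T.δ q (T.F ω)) (T.f0 p ω) (T.mrk 0 ω) (T.cMk kk (q - p) ω) := by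
  obtain ⟨h0, h1⟩ := it_c_adm_basic hT
  have hB : 1 ≤ a.B0 := ha.2.2.2.2.2.2.2.2
  obtain ⟨hA1, hA2, hd⟩ := T.it_c_A_ge h0 h1 a hB acc hacc
  have hM : 0 < pk.M := by have := hpk.1; omega
  have bF : (T.F ω).cBd a.B0 := it_c_nrm_cBd (hT.t0.bdF ω hω)
  obtain ⟨m1, m2, m3⟩ := hT.t0.bdM ω hω 0 hM
  have ht : 0 ≤ q - p := by linarith
  refine ⟨by linarith, (Real.rpow_pos_of_pos h0 _).le, (Real.rpow_pos_of_pos h0 _).le, (Real.rpow_pos_of_pos h0 _).le, ?_,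
    it_c_cBd_mono (it_c_itR_bd h0 h1 hp bF) hA1, it_c_itR_near h0 p _, it_c_itR_near h0 q _, ⟨by linarith, by linarith, by linarith⟩,
    ⟨(it_c_trep_bd h0 h1 ht m1).trans hA1, (it_c_trep_bd h0 h1 ht m2).trans hA1, ?_⟩,
    tl_abs_sub_trep h0 _ _, tl_abs_sub_trep h0 _ _⟩
  · rw [← Real.rpow_add h0]
    exact le_of_eq (by congr 1; ring)
  · cases kk with
    | false => simp only [Tan.cMk]; simp; linarith
    | true => simp only [Tan.cMk, if_true]; exact (it_c_trep_bd h0 h1 ht m3).trans hA1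

theorem it_c_framez_k (h0 : 0 < T.δ) (t : ℝ) (ω : T.Ω) : |(T.mrk 0 ω).k - (T.cMk true t ω).k| ≤ T.δ ^ t := by
  simp only [Tan.cMk, if_true]
  exact tl_abs_sub_trep h0 _ _

end Tan

end Claimed.Agent.R256
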