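-- KEEP
import Claimed.Agent.R256.Int.Cost.Layer

/-!
# Row 256, Sec. 5, block COST: the hypotheses of a layer and what the display gives      (helper267; prefix `it_c_`)

 `ItCLay T a pk acc l p q`  bundle: admissible datum, `l ∈ Lam`, `0 < p < q ≤ 2p`, `t = q - p ≤ ρ l`, `q ≤ 2K`
 `ItCLay.fr`, `.frz`        the pointwise frames
 `ItCLay.regq`, `.regl`     coefficient comparisons (05 l.232-250) at precision `δ^t`
 `ItCLay.prec*`             accuracy of the four displays at the child depth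
-/

set_option autoImplicit false

namespace Claimed.Agent.R256

open Claimed.Agent.R255
open Claimed.Agent.R255.FLaw (pair)
open scoped BigOperators
open Classical

/-- the hypotheses of a layer -/
structure ItCLay (T : Tan) (a : ItPar) (pk : ItPk) (acc l p q : ℝ) : Prop where
  ha : a.Ok
  hpk : pk.Ok
  hacc : 0 ≤ acc
  adm : ∃ τ κ0, T.Adm a pk τ κ0 acc
  hl : l ∈ pk.Lam
  hp : 0 < p
  hpq : p < q
  hq2 : q ≤ 2 * p
  ht : q - p ≤ a.crho T.quad * l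
  hqK : q ≤ 2 * pk.K

theorem it_c_rho_le (a : ItPar) (hc : 0 < a.c) (quad : Bool) {l t : ℝ} (hl : 0 ≤ l) (ht : t ≤ a.crho quad * l) :
    t ≤ l ∧ t ≤ a.c * l ∧ (quad = true → 1 < a.c → t ≤ (a.c - 1) * l) := by
  unfold ItPar.crho at ht
  split_ifs at ht with h
  · have e1 : min 1 (a.c - 1) * l ≤ 1 * l := mul_le_mul_of_nonneg_right (min_le_left _ _) hl
    have e2 : min 1 (a.c - 1) * l ≤ (a.c - 1) * l := mul_le_mul_of_nonneg_right (min_le_right _ _) hl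
    refine ⟨by linarith, ?_, fun _ _ => by linarith⟩
    have : 1 * l ≤ a.c * l := mul_le_mul_of_nonneg_right h.2.le hl
    linarith
  · have e1 : min 1 a.c * l ≤ 1 * l := mul_le_mul_of_nonneg_right (min_le_left _ _) hl
    have e2 : min 1 a.c * l ≤ a.c * l := mul_le_mul_of_nonneg_right (min_le_right _ _) hl
    exact ⟨by linarith, by linarith, fun h1 h2 => absurd ⟨h1, h2⟩ h⟩

namespace ItCLay

variable {T : Tan} {a : ItPar} {pk : ItPk} {acc l p q : ℝ} (h : ItCLay T a pk acc l p q)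
include h

theorem d0 : 0 < T.δ := by obtain ⟨τ, κ0, hT⟩ := h.adm; exact hT.t0.δ0
theorem d1 : T.δ < 1 := by obtain ⟨τ, κ0, hT⟩ := h.adm; exact hT.t0.δ1
theorem hB : 1 ≤ a.B0 := h.ha.2.2.2.2.2.2.2.2
theorem hc : 0 < a.c := h.ha.1
theorem hM : 0 < pk.M := by have := h.hpk.1; omega
theorem l0 : 0 < l := h.hpk.2.2.2.2.2.1 l h.hl
theorem tl : q - p ≤ l := (it_c_rho_le a h.hc T.quad h.l0.le h.ht).1
theorem tcl : q - p ≤ a.c * l := (it_c_rho_le a h.hc T.quad h.l0.le h.ht).2.1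
theorem dfun : ∀ ω ω', T.P.p ω ≠ 0 → T.P.p ω' ≠ 0 → T.O l ω = T.O l ω' → T.Cs ω = T.Cs ω' → T.dsp l ω = T.dsp l ω' := by
  obtain ⟨τ, κ0, hT⟩ := h.adm; exact hT.tg.dfun l h.hl
theorem hA1 : 1 ≤ T.cA a acc := by
  have := (T.it_c_A_ge h.d0 h.d1 a h.hB acc h.hacc).1
  have := h.hB
  linarith

theorem dsp {ω : T.Ω} (hω : T.P.p ω ≠ 0) : T.DspAt a pk.K (T.δ ^ (-acc)) l (T.F ω) (T.mrk 0 ω) (T.dsp l ω) := by
  obtain ⟨τ, κ0, hT⟩ := h.adm; exact hT.tg.dsp l h.hl ω hω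

theorem fr {ω : T.Ω} (hω : T.P.p ω ≠ 0) :
    ItCFr (T.cA a acc) (T.δ ^ p) (T.δ ^ (q - p)) (T.δ ^ q) (T.F ω) (T.f0 p ω) (T.mrk 0 ω) (T.dsp l ω) := by
  obtain ⟨τ, κ0, hT⟩ := h.adm
  exact Tan.it_c_frame h.ha h.hpk h.hacc hT h.hl h.hp.le h.hq2 h.tl hω

theorem frz (kk : Bool) {ω : T.Ω} (hω : T.P.p ω ≠ 0) :
    ItCFz (T.cA a acc) (T.δ ^ p) (T.δ ^ (q - p)) (T.δ ^ q) (T.F ω) (itR T.δ q (T.F ω)) (T.f0 p ω) (T.mrk 0 ω) (T.cMk kk (q - p) ω) := by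
  obtain ⟨τ, κ0, hT⟩ := h.adm
  exact Tan.it_c_framez h.ha h.hpk h.hacc hT h.hp.le h.hpq.le kk hω

theorem up {x u v : ℝ} (hx : x ≤ T.δ ^ (-acc) * T.δ ^ u) (huv : v ≤ u) : x ≤ T.cA a acc * T.δ ^ v :=
  T.it_c_up h.d0 h.d1 a h.hB h.hacc hx huv

/-- the derivative defect at the coefficient precision -/
theorem eps_t (hq : T.quad = true) {ω : T.Ω} (hω : T.P.p ω ≠ 0) :
    |itCEps (T.dsp l ω) (T.F ω)| ≤ T.cA a acc * T.δ ^ (q - p) :=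
  h.up ((h.dsp hω).derq hq) h.tcl

/-- nonconstant quadratic cuts: `𝔟 ≈ 𝔨`, `𝔞 ≈ β` -/
theorem cutn (hq : T.quad = true) (hc1 : 1 < a.c) {ω : T.Ω} (hω : T.P.p ω ≠ 0) :
    |(T.dsp l ω).b - (T.mrk 0 ω).k| + |(T.dsp l ω).R - (T.dsp l ω).th * (T.dsp l ω).b - (T.mrk 0 ω).be|
      ≤ T.cA a acc * T.δ ^ (q - p) :=
  h.up ((h.dsp hω).cutn hq hc1) ((it_c_rho_le a h.hc T.quad h.l0.le h.ht).2.2 hq hc1)

theorem cut_b (hq : T.quad = true) (hc1 : 1 < a.c) {ω : T.Ω} (hω : T.P.p ω ≠ 0) :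
    |(T.dsp l ω).b - (T.mrk 0 ω).k| ≤ T.cA a acc * T.δ ^ (q - p) := by
  have := h.cutn hq hc1 hω
  have := abs_nonneg ((T.dsp l ω).R - (T.dsp l ω).th * (T.dsp l ω).b - (T.mrk 0 ω).be)
  linarith

theorem cut_a (hq : T.quad = true) (hc1 : 1 < a.c) {ω : T.Ω} (hω : T.P.p ω ≠ 0) :
    |(T.dsp l ω).R - (T.dsp l ω).th * (T.dsp l ω).b - (T.mrk 0 ω).be| ≤ T.cA a acc * T.δ ^ (q - p) := by
  have := h.cutn hq hc1 hω
  have := abs_nonneg ((T.dsp l ω).b - (T.mrk 0 ω).k)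
  linarith

/-- quadratic: `𝓡 ≈ r` -/
theorem cut_R (hq : T.quad = true) {ω : T.Ω} (hω : T.P.p ω ≠ 0) :
    |(T.dsp l ω).R - (T.mrk 0 ω).r| ≤ 2 * T.cA a acc ^ 2 * T.δ ^ (q - p) := by
  have hA := h.hA1
  have het : 0 ≤ T.δ ^ (q - p) := (Real.rpow_pos_of_pos h.d0 _).le
  rcases le_or_gt a.c 1 with hc1 | hc1
  · have e1 := h.up ((h.dsp hω).cutc hq hc1).2 h.tcl
    have e2 : T.cA a acc * T.δ ^ (q - p) ≤ 2 * T.cA a acc ^ 2 * T.δ ^ (q - p) :=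
      mul_le_mul_of_nonneg_right (by nlinarith) het
    linarith
  · have F := h.fr hω
    have c0 := h.cutn hq hc1 hω
    have key : (T.dsp l ω).R - (T.mrk 0 ω).r
        = ((T.dsp l ω).R - (T.dsp l ω).th * (T.dsp l ω).b - (T.mrk 0 ω).be)
          + (T.dsp l ω).th * ((T.dsp l ω).b - (T.mrk 0 ω).k) + ((T.dsp l ω).th - (T.mrk 0 ω).th) * (T.mrk 0 ω).k := by
      simp only [ItMk.be]; ring
    rw [key]
    have b1 := abs_nonneg ((T.dsp l ω).R - (T.dsp l ω).th * (T.dsp l ω).b - (T.mrk 0 ω).be)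
    have b2 := abs_nonneg ((T.dsp l ω).b - (T.mrk 0 ω).k)
    have t2 : |(T.dsp l ω).th * ((T.dsp l ω).b - (T.mrk 0 ω).k)| ≤ T.cA a acc * |(T.dsp l ω).b - (T.mrk 0 ω).k| := by
      rw [abs_mul]; exact mul_le_mul_of_nonneg_right F.sth b2
    have t3 : |((T.dsp l ω).th - (T.mrk 0 ω).th) * (T.mrk 0 ω).k| ≤ T.cA a acc * T.δ ^ (q - p) * T.cA a acc := by
      rw [abs_mul]; exact mul_le_mul F.time F.bμ.2.2 (abs_nonneg _) (by positivity)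
    have t4 := abs_add_le (((T.dsp l ω).R - (T.dsp l ω).th * (T.dsp l ω).b - (T.mrk 0 ω).be)
          + (T.dsp l ω).th * ((T.dsp l ω).b - (T.mrk 0 ω).k)) (((T.dsp l ω).th - (T.mrk 0 ω).th) * (T.mrk 0 ω).k)
    have t5 := abs_add_le ((T.dsp l ω).R - (T.dsp l ω).th * (T.dsp l ω).b - (T.mrk 0 ω).be)
          ((T.dsp l ω).th * ((T.dsp l ω).b - (T.mrk 0 ω).k))
    have t6 : |(T.dsp l ω).R - (T.dsp l ω).th * (T.dsp l ω).b - (T.mrk 0 ω).be| + T.cA a acc * |(T.dsp l ω).b - (T.mrk 0 ω).k|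
        ≤ T.cA a acc * (T.cA a acc * T.δ ^ (q - p)) := by nlinarith
    nlinarith

/-- linear: `𝓛 ≈ r`, no curvature -/
theorem lin_L (hq : T.quad = false) {ω : T.Ω} (hω : T.P.p ω ≠ 0) :
    |(T.mrk 0 ω).r - (T.dsp l ω).L| ≤ T.cA a acc * T.δ ^ (q - p) :=
  h.up ((h.dsp hω).derl hq).1 h.tcl

theorem lin_R (hq : T.quad = false) {ω : T.Ω} (hω : T.P.p ω ≠ 0) : |(T.dsp l ω).R| ≤ T.cA a acc * T.δ ^ q :=
  h.up ((h.dsp hω).derl hq).2.1 h.hqK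

theorem lin_b (hq : T.quad = false) {ω : T.Ω} (hω : T.P.p ω ≠ 0) : |(T.dsp l ω).b| ≤ T.cA a acc * T.δ ^ q :=
  h.up ((h.dsp hω).derl hq).2.2 h.hqK

/-! accuracy of the displays at the child depth -/

theorem precW (hql : q ≤ l) {ω : T.Ω} (hω : T.P.p ω ≠ 0) :
    |(T.dsp l ω).W - ((T.F ω).B + (T.dsp l ω).th * (T.F ω).X)| ≤ T.cA a acc * T.δ ^ q := h.up (h.dsp hω).baseW hql

theorem precV (hql : q ≤ l) {ω : T.Ω} (hω : T.P.p ω ≠ 0) :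
    |(T.dsp l ω).V - ((T.F ω).Y + (T.dsp l ω).th * (T.F ω).X ^ 2)| ≤ T.cA a acc * T.δ ^ q := h.up (h.dsp hω).baseV hql

theorem precVel (hql : q ≤ a.c * l) {ω : T.Ω} (hω : T.P.p ω ≠ 0) :
    |(T.dsp l ω).vel - itCVel (T.dsp l ω) (T.F ω)| ≤ T.cA a acc * T.δ ^ q := h.up (h.dsp hω).vel hql

theorem precPos (hql : q ≤ (1 + a.c) * l) {ω : T.Ω} (hω : T.P.p ω ≠ 0) :
    |(T.dsp l ω).pos - itCPos (T.dsp l ω) (T.F ω)| ≤ T.cA a acc * T.δ ^ q := h.up (h.dsp hω).pos hql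

theorem precEps (hq : T.quad = true) (hql : q ≤ a.c * l) {ω : T.Ω} (hω : T.P.p ω ≠ 0) :
    |itCEps (T.dsp l ω) (T.F ω)| ≤ T.cA a acc * T.δ ^ q := h.up ((h.dsp hω).derq hq) hql

end ItCLay

end Claimed.Agent.R256
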