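-- KEEP
import Claimed.Agent.R256.Int.Cost.Regime
import Claimed.Agent.R256.Int.Cost.Pt2

/-!
# Row 256, Sec. 5, block COST: the first range `q ≤ min(1,c) l`      (helper267; prefix `it_c_`)

05 l.205-213: the output, `C_*` and `X_q` read `F_q` up to lists (`it_c_w_rec`); the angular increment costs at most `m (q - p)` (`it_c_ang_up`, `it_c_ang_lo`, clause `ang`).
-/

set_option autoImplicit false

namespace Claimed.Agent.R256

open Claimed.Agent.R255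
open Claimed.Agent.R255.FLaw (pair)
open scoped BigOperators
open Classical

namespace Tan
variable {T : Tan}

theorem it_c_L_pos (h0 : 0 < T.δ) (h1 : T.δ < 1) : 0 < T.L := by
  rw [T.it_c_L_eq]
  have := Real.log_neg h0 h1
  linarith

/-- the frame of the first range -/
theorem it_c_framew {a : ItPar} (ha : a.Ok) {pk : ItPk} {τ κ0 acc : ℝ} (hacc : 0 ≤ acc)
    (hT : T.Adm a pk τ κ0 acc) {l q : ℝ} (hl : l ∈ pk.Lam) (hq : 0 ≤ q) (hq1 : q ≤ l) (hqc : q ≤ a.c * l)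
    {ω : T.Ω} (hω : T.P.p ω ≠ 0) :
    ItCFw (T.cA a acc) (T.δ ^ q) (T.F ω) (trep T.δ q (T.F ω).X) (T.dsp l ω) := by
  obtain ⟨h0, h1⟩ := it_c_adm_basic hT
  have hB : 1 ≤ a.B0 := ha.2.2.2.2.2.2.2.2
  obtain ⟨hA1, hA2, hd⟩ := T.it_c_A_ge h0 h1 a hB acc hacc
  have D := hT.tg.dsp l hl ω hω
  have bF : (T.F ω).cBd a.B0 := it_c_nrm_cBd (hT.t0.bdF ω hω)
  obtain ⟨s1, s2, s3, s4⟩ := D.bd
  exact ⟨by linarith, (Real.rpow_pos_of_pos h0 _).le, Real.rpow_le_one h0.le h1.le hq, it_c_cBd_mono bF (by linarith),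
    tl_abs_sub_trep h0 _ _, (it_c_trep_bd h0 h1 hq bF.1).trans hA1, s1.trans hA2, s2.trans hA2, s3.trans hA2, s4.trans hA2,
    T.it_c_up h0 h1 a hB hacc D.baseW hq1, T.it_c_up h0 h1 a hB hacc D.baseV hq1, T.it_c_up h0 h1 a hB hacc D.vel hqc,
    T.it_c_up h0 h1 a hB hacc D.pos (by nlinarith)⟩

/-- the output, the root and `X_q` read `F_q` up to five lists -/
theorem it_c_w_rec {a : ItPar} (ha : a.Ok) {pk : ItPk} {τ κ0 acc : ℝ} (hacc : 0 ≤ acc)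
    (hT : T.Adm a pk τ κ0 acc) {l q : ℝ} (p : ℝ) (hl : l ∈ pk.Lam) (hq : 0 ≤ q) (hq1 : q ≤ l) (hqc : q ≤ a.c * l) :
    T.P.entC (T.Fn q) (pair (T.Xn q) (pair (T.O l) (T.cC p))) ≤ 5 * T.cLg a acc := by
  obtain ⟨h0, h1⟩ := it_c_adm_basic hT
  have hB : 1 ≤ a.B0 := ha.2.2.2.2.2.2.2.2
  have hlg := (T.it_c_lg_le h0 h1 a hB acc hacc).1
  set Z := pair (T.Xn q) (pair (T.O l) (T.cC p)) with hZ
  obtain ⟨dec, hdec⟩ := T.it_c_dec l (hT.tg.dfun l hl)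
  have hdd : ∀ ω ω₀, T.P.p ω ≠ 0 → Z ω = Z ω₀ →
      T.dsp l ω = dec (T.O l ω₀) (T.Cs ω₀) ∧ trep T.δ q (T.F ω).X = trep T.δ q (T.F ω₀).X := by
    intro ω ω₀ hω he
    simp only [hZ, pair, Tan.cC, Prod.mk.injEq] at he
    refine ⟨?_, it_c_trep_of_cell he.1⟩
    rw [← he.2.1, ← he.2.2.1]
    exact hdec ω hω
  have gen : ∀ (c : ItPh → ℝ) (Y : ItDsp → ℝ → ℝ),
      (∀ ω, T.P.p ω ≠ 0 → |c (T.F ω) - Y (T.dsp l ω) (trep T.δ q (T.F ω).X)| ≤ 100 * T.cA a acc ^ 6 * T.δ ^ q) →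
      T.P.entC (fun ω => tcell T.δ q (c (T.F ω))) Z ≤ T.cLg a acc := by
    intro c Y hc
    exact tl_nval_cell T.P Z (fun ω => c (T.F ω)) (R := T.cR a acc) h0 h1 hq
      (fun ω₀ => ⟨Y (dec (T.O l ω₀) (T.Cs ω₀)) (trep T.δ q (T.F ω₀).X), fun ω hω he => by
        rw [← (hdd ω ω₀ hω he).1, ← (hdd ω ω₀ hω he).2]; exact hc ω hω⟩)
  have eX : T.P.entC (fun ω => tcell T.δ q (T.F ω).X) Z = 0 :=
    ent_entC_eq_zero _ _ _ fun ω ω' _ _ he => by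
      simp only [hZ, pair, Prod.mk.injEq] at he
      exact he.1
  have eB := gen (fun f => f.B) (fun s x => s.W - s.th * x) fun ω hω => it_c_pw_B (it_c_framew ha hacc hT hl hq hq1 hqc hω)
  have eY := gen (fun f => f.Y) (fun s x => s.V - s.th * x ^ 2) fun ω hω => it_c_pw_Y (it_c_framew ha hacc hT hl hq hq1 hqc hω)
  have eN := gen (fun f => f.N) (fun s x => itCyN s x) fun ω hω => it_c_pw_N (it_c_framew ha hacc hT hl hq hq1 hqc hω)
  have eD := gen (fun f => f.D) (fun s x => itCyD s x) fun ω hω => it_c_pw_D (it_c_framew ha hacc hT hl hq hq1 hqc hω)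
  have eP : T.P.entC (fun ω => tcell T.δ q (T.F ω).P) Z ≤ T.cLg a acc := by
    cases hquad : T.quad with
    | true =>
      exact gen (fun f => f.P) (fun s x => s.L + 2 * s.R * x - 2 * s.b * s.W) fun ω hω =>
        it_c_pw_P (it_c_framew ha hacc hT hl hq hq1 hqc hω)
          (T.it_c_up h0 h1 a hB hacc ((hT.tg.dsp l hl ω hω).derq hquad) hqc)
    | false =>
      have : T.P.entC (fun ω => tcell T.δ q (T.F ω).P) Z = 0 :=
        ent_entC_eq_zero _ _ _ fun ω ω' _ _ _ => by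
          show tcell T.δ q (T.F ω).P = tcell T.δ q (T.F ω').P
          rw [hT.t0.lin0 hquad ω, hT.t0.lin0 hquad ω']
      rw [this]; exact hlg
  have a0 : T.Fn q = pair (pair (fun ω => tcell T.δ q (T.F ω).X) (pair (fun ω => tcell T.δ q (T.F ω).B) (fun ω => tcell T.δ q (T.F ω).P)))
      (pair (fun ω => tcell T.δ q (T.F ω).Y) (pair (fun ω => tcell T.δ q (T.F ω).N) (fun ω => tcell T.δ q (T.F ω).D))) := rfl
  rw [a0]
  have b1 := ent_entC_pair_le_add T.P (pair (fun ω => tcell T.δ q (T.F ω).X) (pair (fun ω => tcell T.δ q (T.F ω).B) (fun ω => tcell T.δ q (T.F ω).P)))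
      (pair (fun ω => tcell T.δ q (T.F ω).Y) (pair (fun ω => tcell T.δ q (T.F ω).N) (fun ω => tcell T.δ q (T.F ω).D))) Z
  have b2 := ent_entC_pair_le_add T.P (fun ω => tcell T.δ q (T.F ω).X) (pair (fun ω => tcell T.δ q (T.F ω).B) (fun ω => tcell T.δ q (T.F ω).P)) Z
  have b3 := ent_entC_pair_le_add T.P (fun ω => tcell T.δ q (T.F ω).B) (fun ω => tcell T.δ q (T.F ω).P) Z
  have b4 := ent_entC_pair_le_add T.P (fun ω => tcell T.δ q (T.F ω).Y) (pair (fun ω => tcell T.δ q (T.F ω).N) (fun ω => tcell T.δ q (T.F ω).D)) Z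
  have b5 := ent_entC_pair_le_add T.P (fun ω => tcell T.δ q (T.F ω).N) (fun ω => tcell T.δ q (T.F ω).D) Z
  linarith

/-- capacity of the angular name -/
theorem it_c_X_cap (h0 : 0 < T.δ) (h1 : T.δ < 1) {B0 q : ℝ} (hB : 1 ≤ B0) (hq : 0 ≤ q)
    (hF : ∀ ω, T.P.p ω ≠ 0 → |(T.F ω).X| ≤ B0) :
    ∃ M : ℝ, (∃ S : Finset ℤ, (S.card : ℝ) ≤ M ∧ ∀ ω, T.P.p ω ≠ 0 → T.Xn q ω ∈ S) ∧ Real.log M ≤ Real.log (6 * B0) + q * T.L := by
  have hd : 1 ≤ T.δ ^ (-q) := Real.one_le_rpow_of_pos_of_le_one_of_nonpos h0 h1.le (by linarith)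
  have hR1 : 1 ≤ B0 * T.δ ^ (-q) := by nlinarith
  refine ⟨(⌈4 * (B0 * T.δ ^ (-q))⌉₊ : ℝ) + 1, ⟨Finset.Icc ⌊((0 : ℝ) - B0 * T.δ ^ (-q) * T.δ ^ q) * 2 ^ (tlev T.δ q)⌋
      (⌊((0 : ℝ) - B0 * T.δ ^ (-q) * T.δ ^ q) * 2 ^ (tlev T.δ q)⌋ + (⌈4 * (B0 * T.δ ^ (-q))⌉₊ : ℤ)), ?_, fun ω hω => ?_⟩, ?_⟩
  · rw [tl_card_Icc_nat]
    push_cast
    exact le_refl _
  · refine tl_cell_count h0 h1 hq ?_
    rw [sub_zero, mul_assoc, ← Real.rpow_add h0]
    simpa using hF ω hω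
  · have c1 : (⌈4 * (B0 * T.δ ^ (-q))⌉₊ : ℝ) + 1 ≤ 6 * B0 * T.δ ^ (-q) := by
      have := (Nat.ceil_lt_add_one (by positivity : 0 ≤ 4 * (B0 * T.δ ^ (-q)))).le
      linarith
    have c2 : Real.log ((⌈4 * (B0 * T.δ ^ (-q))⌉₊ : ℝ) + 1) ≤ Real.log (6 * B0 * T.δ ^ (-q)) := by
      apply Real.log_le_log _ c1
      have : (0 : ℝ) ≤ (⌈4 * (B0 * T.δ ^ (-q))⌉₊ : ℝ) := Nat.cast_nonneg _
      linarith
    have c3 : Real.log (6 * B0 * T.δ ^ (-q)) = Real.log (6 * B0) + q * T.L := by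
      rw [Real.log_mul (by positivity) (by positivity), Real.log_rpow h0, T.it_c_L_eq]
      ring
    linarith

/-- upper bound of the angular entropy -/
theorem it_c_ang_up {a : ItPar} (ha : a.Ok) {pk : ItPk} {τ κ0 acc : ℝ} (hacc : 0 ≤ acc)
    (hT : T.Adm a pk τ κ0 acc) {q : ℝ} (hqG : q ∈ pk.G) (hq : 0 ≤ q) :
    T.P.entC (T.Xn q) T.Cs ≤ Real.log 2 + (a.m * q + acc) * T.L + acc * (Real.log (6 * a.B0) + q * T.L) := by
  obtain ⟨h0, h1⟩ := it_c_adm_basic hT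
  have hB : 1 ≤ a.B0 := ha.2.2.2.2.2.2.2.2
  have hm : 0 ≤ a.m := ha.2.2.2.1
  have hL := it_c_L_pos h0 h1
  obtain ⟨M, hM, hlog⟩ := it_c_X_cap h0 h1 hB hq (fun ω hω => (it_c_nrm_cBd (hT.t0.bdF ω hω)).1)
  have hpr : T.P.pr (fun ω => (a.m * q + acc) * T.L < T.P.surC (T.Xn q) T.Cs ω) ≤ acc := by
    refine (ent_pr_mono T.P fun ω _ hE => ?_).trans (hT.ti.ang q hqG)
    have : acc * T.L < T.P.surC (T.Xn q) T.Cs ω - a.m * q * T.L := by nlinarith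
    exact this.trans_le (le_abs_self _)
  have := it_c_ent_le T.P (T.Xn q) T.Cs (c := (a.m * q + acc) * T.L) (by positivity) hM hpr
  have h2 : acc * Real.log M ≤ acc * (Real.log (6 * a.B0) + q * T.L) := mul_le_mul_of_nonneg_left hlog hacc
  linarith

/-- lower bound of the angular entropy -/
theorem it_c_ang_lo {a : ItPar} (ha : a.Ok) {pk : ItPk} {τ κ0 acc : ℝ} (hacc : 0 ≤ acc)
    (hT : T.Adm a pk τ κ0 acc) {p : ℝ} (hpG : p ∈ pk.G) (hp : 0 ≤ p) :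
    (a.m * p - acc) * T.L - acc * (a.m * p * T.L) ≤ T.P.entC (T.Xn p) T.Cs := by
  obtain ⟨h0, h1⟩ := it_c_adm_basic hT
  have hm : 0 ≤ a.m := ha.2.2.2.1
  have hL := it_c_L_pos h0 h1
  have hmp : 0 ≤ a.m * p * T.L := by positivity
  rcases le_or_gt 0 ((a.m * p - acc) * T.L) with hc | hc
  · have hpr : T.P.pr (fun ω => T.P.surC (T.Xn p) T.Cs ω < (a.m * p - acc) * T.L) ≤ acc := by
      refine (ent_pr_mono T.P fun ω _ hE => ?_).trans (hT.ti.ang p hpG)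
      have : acc * T.L < -(T.P.surC (T.Xn p) T.Cs ω - a.m * p * T.L) := by nlinarith
      exact this.trans_le (neg_le_abs _)
    have := ltk_ent_ge T.P (T.Xn p) T.Cs hc hpr
    have h3 : acc * ((a.m * p - acc) * T.L) ≤ acc * (a.m * p * T.L) := by
      apply mul_le_mul_of_nonneg_left _ hacc
      nlinarith
    nlinarith
  · have := ent_entC_nonneg T.P (T.Xn p) T.Cs
    have h3 : 0 ≤ acc * (a.m * p * T.L) := by positivity
    linarith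

/-- THE FIRST RANGE -/
theorem it_c_core_w {a : ItPar} (ha : a.Ok) {pk : ItPk} {τ κ0 acc : ℝ} (hacc : 0 ≤ acc) (hacc1 : acc ≤ 1)
    (hT : T.Adm a pk τ κ0 acc) {l p q : ℝ} (hl : l ∈ pk.Lam) (hl0 : 0 < l) (hp : 0 < p) (hpq : p < q) (hq1 : q ≤ min 1 a.c * l)
    (hpG : p ∈ pk.G) (hqG : q ∈ pk.G) :
    T.hF pk.M p q - a.m * (q - p) * T.L
        - (Real.log 2 + Real.log (6 * a.B0) + 5 * T.cLg a acc + (2 + q + a.m * p) * acc * T.L)
      ≤ T.P.miC (T.Fn q) (T.O l) (pair T.Cs (T.Fn p)) := by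
  obtain ⟨h0, h1⟩ := it_c_adm_basic hT
  have hB : 1 ≤ a.B0 := ha.2.2.2.2.2.2.2.2
  have hL := it_c_L_pos h0 h1
  have hq0 : 0 ≤ q := by linarith
  have hql : q ≤ l := hq1.trans (by have := mul_le_mul_of_nonneg_right (min_le_left 1 a.c) hl0.le; linarith)
  have hqc : q ≤ a.c * l := hq1.trans (mul_le_mul_of_nonneg_right (min_le_right 1 a.c) hl0.le)
  have s1 := ent_miC_eq T.P (T.Fn q) (T.O l) (T.cC p)
  have s2 : T.hF pk.M p q ≤ T.P.entC (T.Fn q) (T.cC p) := by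
    unfold Tan.hF
    refine ent_entC_anti _ _ _ _ fun ω ω' _ _ h => ?_
    simp only [Tan.base, Tan.Dd, Prod.mk.injEq] at h
    simp only [pair, Tan.cC, Prod.mk.injEq]
    exact ⟨h.2.1, h.1⟩
  have s3 := it_c_via T.P (T.Fn q) (T.Xn q) (pair (T.O l) (T.cC p))
  have s4 : T.P.entC (T.Xn q) (pair (T.O l) (T.cC p)) ≤ T.P.entC (T.Xn q) (pair (T.Xn p) T.Cs) := by
    refine ent_entC_anti _ _ _ _ fun ω ω' _ _ h => ?_
    simp only [pair, Tan.cC, Prod.mk.injEq] at h ⊢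
    exact ⟨T.it_c_Xn_of_Fn h.2.2, h.2.1⟩
  have s5 := ent_entC_chain T.P (T.Xn p) (T.Xn q) T.Cs
  have s6 : T.P.entC (pair (T.Xn p) (T.Xn q)) T.Cs = T.P.entC (T.Xn q) T.Cs := by
    refine ent_entC_congr _ _ _ _ _ (fun _ _ _ _ => Iff.rfl) fun ω ω' _ _ _ => ?_
    simp only [pair, Prod.mk.injEq]
    exact ⟨fun h => h.2, fun h => ⟨it_c_cell_nest h0 h1 hpq.le h, h⟩⟩
  have s7 := it_c_ang_up ha hacc hT hqG hq0
  have s8 := it_c_ang_lo ha hacc hT hpG hp.le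
  have s9 := it_c_w_rec ha hacc hT p hl hq0 hql hqc
  have s10 : acc * Real.log (6 * a.B0) ≤ Real.log (6 * a.B0) := by
    have : 0 ≤ Real.log (6 * a.B0) := Real.log_nonneg (by linarith)
    nlinarith
  have e : T.P.miC (T.Fn q) (T.O l) (T.cC p) = T.P.miC (T.Fn q) (T.O l) (pair T.Cs (T.Fn p)) := rfl
  rw [← e]
  nlinarith

end Tan

end Claimed.Agent.R256
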