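-- KEEP
import Claimed.Agent.R256.Int.Cost.Regime
import Claimed.Agent.R256.Int.Cost.Pt2

/-!
# Row 256, Sec. 5, block COST: the three projected ranges      (helper267; prefix `it_c_`)

 `ItCLay.core`     the layer lemma with the recovery of `Ω` :  `hh U - (3 + 2|U|) cLg ≤ I(F_q ; O_l | C_*, F_p)`
 `ItCLay.core_pi`  `q ≤ l`              pays `π_0`
 `ItCLay.core_G`   `1 < c`, `q ≤ c l`   pays `G_0`
 `ItCLay.core_x`   `q ≤ (1 + c) l`      pays `x_0`
-/

set_option autoImplicit false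

namespace Claimed.Agent.R256

open Claimed.Agent.R255
open Claimed.Agent.R255.FLaw (pair)
open scoped BigOperators
open Classical

/-- the reading `u` is fixed within `R δ^q` by `(F_q, C_*, F_p, Ω)` -/
def Tan.cSA (T : Tan) (a : ItPar) (acc p q : ℝ) (kk : Bool) (u : T.Ω → ItPh) : Prop :=
  ∀ ω₀, ∃ y₀ : ℝ, ∀ ω, T.P.p ω ≠ 0 →
    pair (T.Fn q) (pair (T.cC p) (T.cOm kk (q - p))) ω = pair (T.Fn q) (pair (T.cC p) (T.cOm kk (q - p))) ω₀ →
    |itVal (u ω) (T.F ω) (T.f0 p ω) - y₀| ≤ T.cR a acc * T.δ ^ q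

/-- the reading `u` is fixed within `R δ^q` by `(O_l, C_*, F_p, Ω)` -/
def Tan.cSB (T : Tan) (a : ItPar) (acc l p q : ℝ) (kk : Bool) (u : T.Ω → ItPh) : Prop :=
  ∀ ω₀, ∃ y₀ : ℝ, ∀ ω, T.P.p ω ≠ 0 →
    pair (T.O l) (pair (T.cC p) (T.cOm kk (q - p))) ω = pair (T.O l) (pair (T.cC p) (T.cOm kk (q - p))) ω₀ →
    |itVal (u ω) (T.F ω) (T.f0 p ω) - y₀| ≤ T.cR a acc * T.δ ^ q

theorem it_c_ranges_eqns_cite : True := by
  have := @Tan.cSA.eq_1; have := @Tan.cSB.eq_1
  trivial

namespace ItCLay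

variable {T : Tan} {a : ItPar} {pk : ItPk} {acc l p q : ℝ} (h : ItCLay T a pk acc l p q)
include h

/-! ## the side of `F_q` -/

theorem zW (kk : Bool) : T.cSA a acc p q kk (T.cW 0) :=
  T.it_c_zside p q kk (q - p) (T.cW 0) (fun f' g μ' => itVal (itcW μ') f' g) _ fun _ hω => it_c_pz_W (h.frz kk hω)

theorem zH (kk : Bool) : T.cSA a acc p q kk (T.cH p) :=
  T.it_c_zside p q kk (q - p) (T.cH p) (fun f' g _ => itVal (itcH g) f' g) _ fun _ hω => it_c_pz_H (h.frz kk hω)

theorem zx (kk : Bool) : T.cSA a acc p q kk (T.cx p 0) := by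
  cases hq : T.quad with
  | true =>
    refine T.it_c_zside p q kk (q - p) (T.cx p 0) (fun f' g μ' => itVal (itcxq g μ') f' g) _ fun ω hω => ?_
    simp only [Tan.cx, hq, if_true]
    exact it_c_pz_xq (h.frz kk hω)
  | false =>
    refine T.it_c_zside p q kk (q - p) (T.cx p 0) (fun f' g μ' => itVal (itcxl μ') f' g) _ fun ω hω => ?_
    simp only [Tan.cx, hq]
    exact it_c_pz_xl (h.frz kk hω)

theorem zGq (hq : T.quad = true) : ∀ u ∈ T.rG p 0, T.cSA a acc p q true u := by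
  intro u hu
  simp only [Tan.rG, hq, if_true, List.mem_cons, List.not_mem_nil, or_false] at hu
  rcases hu with rfl | rfl | rfl
  · exact T.it_c_zside p q true (q - p) (T.cL 0) (fun f' g μ' => itVal (itcL μ') f' g) _ fun ω hω =>
      it_c_pz_L (h.frz true hω) (Tan.it_c_framez_k h.d0 _ ω)
  · exact T.it_c_zside p q true (q - p) _ (fun f' g μ' => itVal (itcG2 g μ') f' g) _ fun ω hω =>
      it_c_pz_G2 (h.frz true hω) (Tan.it_c_framez_k h.d0 _ ω)
  · exact T.it_c_zside p q true (q - p) _ (fun f' g μ' => itVal (itcG3 g μ') f' g) _ fun ω hω =>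
      it_c_pz_G3 (h.frz true hω) (Tan.it_c_framez_k h.d0 _ ω)

theorem zGl (hq : T.quad = false) : ∀ u ∈ T.rG p 0, T.cSA a acc p q false u := by
  intro u hu
  simp only [Tan.rG, hq, List.mem_cons, List.not_mem_nil, or_false] at hu
  simp only [Bool.false_eq_true, if_false, List.mem_cons, List.not_mem_nil, or_false] at hu
  rcases hu with rfl | rfl
  · exact T.it_c_zside p q false (q - p) _ (fun f' g μ' => itVal (itcGa μ') f' g) _ fun ω hω => it_c_pz_Ga (h.frz false hω)
  · exact T.it_c_zside p q false (q - p) _ (fun f' g μ' => itVal (itcGb μ') f' g) _ fun ω hω => it_c_pz_Gb (h.frz false hω)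

/-! ## the side of the output -/

theorem yW (kk : Bool) (hql : q ≤ l) : T.cSB a acc l p q kk (T.cW 0) :=
  T.it_c_yside l p _ h.dfun (T.cW 0) (fun s g => s.W - (g.B + s.th * g.X)) _ fun _ hω => it_c_pt_W (h.fr hω) (h.precW hql hω)

theorem yH (kk : Bool) (hql : q ≤ l) : T.cSB a acc l p q kk (T.cH p) :=
  T.it_c_yside l p _ h.dfun (T.cH p) (fun s g => s.V - 2 * g.X * s.W + s.th * g.X ^ 2 - g.Y + 2 * g.X * g.B) _ fun _ hω =>
    it_c_pt_H (h.fr hω) (h.precW hql hω) (h.precV hql hω)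

theorem yx (kk : Bool) (hql : q ≤ (1 + a.c) * l) : T.cSB a acc l p q kk (T.cx p 0) := by
  refine T.it_c_yside l p _ h.dfun (T.cx p 0) (fun s g => s.pos - itCPos s g) _ fun ω hω => ?_
  cases hq : T.quad with
  | true =>
    simp only [Tan.cx, hq, if_true]
    exact it_c_pt_xq (h.fr hω) (h.cut_R hq hω) (h.eps_t hq hω) (h.precPos hql hω)
  | false =>
    simp only [Tan.cx, hq]
    exact it_c_pt_xl (h.fr hω) (h.lin_L hq hω) (h.lin_R hq hω) (h.lin_b hq hω) (h.precPos hql hω)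

theorem hql' (hc1 : 1 < a.c) (hql : q ≤ a.c * l) : q ≤ (1 + a.c) * l := by
  have := h.l0
  nlinarith

theorem yGq (hq : T.quad = true) (hc1 : 1 < a.c) (hql : q ≤ a.c * l) : ∀ u ∈ T.rG p 0, T.cSB a acc l p q true u := by
  intro u hu
  simp only [Tan.rG, hq, if_true, List.mem_cons, List.not_mem_nil, or_false] at hu
  rcases hu with rfl | rfl | rfl
  · exact T.it_c_yside l p _ h.dfun (T.cL 0) (fun s g => s.L - (g.P - 2 * (s.R - s.th * s.b) * g.X + 2 * s.b * g.B)) _ fun ω hω =>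
      it_c_pt_L (h.fr hω) (h.cut_b hq hc1 hω) (h.cut_a hq hc1 hω) (h.precEps hq hql hω)
  · exact T.it_c_yside l p _ h.dfun _ (fun s g => s.vel - itCVel s g) _ fun ω hω =>
      it_c_pt_G2 (h.fr hω) (h.cut_b hq hc1 hω) (h.eps_t hq hω) (h.precVel hql hω)
  · exact T.it_c_yside l p _ h.dfun _ (fun s g => (s.pos - itCPos s g) - s.th * (s.vel - itCVel s g)) _ fun ω hω =>
      it_c_pt_G3 (h.fr hω) (h.cut_a hq hc1 hω) (h.eps_t hq hω) (h.precPos (h.hql' hc1 hql) hω) (h.precVel hql hω)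

theorem yGl (hq : T.quad = false) (hc1 : 1 < a.c) (hql : q ≤ a.c * l) : ∀ u ∈ T.rG p 0, T.cSB a acc l p q false u := by
  intro u hu
  simp only [Tan.rG, hq, List.mem_cons, List.not_mem_nil, or_false] at hu
  simp only [Bool.false_eq_true, if_false, List.mem_cons, List.not_mem_nil, or_false] at hu
  rcases hu with rfl | rfl
  · exact T.it_c_yside l p _ h.dfun _ (fun s g => s.vel - itCVel s g) _ fun ω hω =>
      it_c_pt_Ga (h.fr hω) (h.lin_L hq hω) (h.lin_R hq hω) (h.lin_b hq hω) (h.precVel hql hω)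
  · exact T.it_c_yside l p _ h.dfun _ (fun s g => (s.pos - itCPos s g) - s.th * (s.vel - itCVel s g)) _ fun ω hω =>
      it_c_pt_Gb (h.fr hω) (h.lin_L hq hω) (h.lin_R hq hω) (h.lin_b hq hω) (h.precPos (h.hql' hc1 hql) hω) (h.precVel hql hω)

/-! ## the layer lemma with the recovery of `Ω` -/

theorem le_cR {x c : ℝ} (hc : c ≤ 100 * T.cA a acc ^ 6) (hx : x ≤ c * T.δ ^ (q - p)) : x ≤ T.cR a acc * T.δ ^ (q - p) :=
  hx.trans (mul_le_mul_of_nonneg_right hc (Real.rpow_pos_of_pos h.d0 _).le)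

theorem core (kk : Bool) (hkk : kk = true → T.quad = true ∧ 1 < a.c) (U : List (T.Ω → ItPh))
    (hA : ∀ u ∈ U, T.cSA a acc p q kk u) (hB : ∀ u ∈ U, T.cSB a acc l p q kk u) :
    T.hh pk.M p q U [] - (3 + 2 * U.length) * T.cLg a acc ≤ T.P.miC (T.Fn q) (T.O l) (pair T.Cs (T.Fn p)) := by
  obtain ⟨p0, p1, p2, p3, p4, p5⟩ := it_c_aux_pow h.hA1
  have hA6 : 0 ≤ T.cA a acc ^ 6 := by linarith
  have hOm : T.P.entC (T.cOm kk (q - p)) (pair (T.O l) (T.cC p)) ≤ 3 * T.cLg a acc := by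
    refine T.it_c_Om_le h.d0 h.d1 l p (q - p) (T.cR a acc) (by linarith [h.hpq]) kk h.dfun
      (fun s => if T.quad then s.R else s.L) (fun ω hω => ?_) (fun ω hω => ?_) (fun hk ω hω => ?_)
    · rw [abs_sub_comm]
      exact h.le_cR (by linarith) (h.fr hω).time
    · cases hq : T.quad with
      | true =>
        simp only [if_true]
        rw [abs_sub_comm]
        exact h.le_cR (by linarith) (h.cut_R hq hω)
      | false =>
        simp only [Bool.false_eq_true, if_false]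
        exact h.le_cR (by linarith) (h.lin_L hq hω)
    · rw [abs_sub_comm]
      exact h.le_cR (by linarith) (h.cut_b (hkk hk).1 (hkk hk).2 hω)
  have := T.it_c_layer h.d0 h.d1 pk.M h.hM l p q (T.cR a acc) (by linarith [h.hp, h.hpq]) kk (q - p) U _ hOm hA hB
  have e : Real.log ((⌈4 * T.cR a acc⌉₊ : ℝ) + 1) = T.cLg a acc := rfl
  rw [e] at this
  linarith

theorem lg0 : 0 ≤ T.cLg a acc := (T.it_c_lg_le h.d0 h.d1 a h.hB acc h.hacc).1

/-- middle range `c < 1` (only `q ≤ l` is used) -/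
theorem core_pi (hql : q ≤ l) :
    T.hh pk.M p q (T.rPi p 0) [] - 9 * T.cLg a acc ≤ T.P.miC (T.Fn q) (T.O l) (pair T.Cs (T.Fn p)) := by
  have hql2 : q ≤ (1 + a.c) * l := by have := h.l0; have := h.hc; nlinarith
  have := h.core false (by simp) (T.rPi p 0)
    (by
      intro u hu
      simp only [Tan.rPi, List.mem_cons, List.not_mem_nil, or_false] at hu
      rcases hu with rfl | rfl | rfl
      exacts [h.zW false, h.zH false, h.zx false])
    (by
      intro u hu
      simp only [Tan.rPi, List.mem_cons, List.not_mem_nil, or_false] at hu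
      rcases hu with rfl | rfl | rfl
      exacts [h.yW false hql, h.yH false hql, h.yx false hql2])
  have e : ((T.rPi p 0).length : ℝ) = 3 := by simp [Tan.rPi]
  rw [e] at this
  linarith

/-- middle range `c > 1` -/
theorem core_G (hc1 : 1 < a.c) (hql : q ≤ a.c * l) :
    T.hh pk.M p q (T.rG p 0) [] - 9 * T.cLg a acc ≤ T.P.miC (T.Fn q) (T.O l) (pair T.Cs (T.Fn p)) := by
  have hlg := h.lg0
  cases hq : T.quad with
  | true =>
    have := h.core true (fun _ => ⟨hq, hc1⟩) (T.rG p 0) (h.zGq hq) (h.yGq hq hc1 hql)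
    have e : ((T.rG p 0).length : ℝ) = 3 := by simp [Tan.rG, hq]
    rw [e] at this
    linarith
  | false =>
    have := h.core false (by simp) (T.rG p 0) (h.zGl hq) (h.yGl hq hc1 hql)
    have e : ((T.rG p 0).length : ℝ) = 2 := by simp [Tan.rG, hq]
    rw [e] at this
    linarith

/-- last range -/
theorem core_x (hql : q ≤ (1 + a.c) * l) :
    T.hh pk.M p q [T.cx p 0] [] - 9 * T.cLg a acc ≤ T.P.miC (T.Fn q) (T.O l) (pair T.Cs (T.Fn p)) := by
  have hlg := h.lg0
  have := h.core false (by simp) [T.cx p 0]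
    (by intro u hu; simp only [List.mem_cons, List.not_mem_nil, or_false] at hu; subst hu; exact h.zx false)
    (by intro u hu; simp only [List.mem_cons, List.not_mem_nil, or_false] at hu; subst hu; exact h.yx false hql)
  simp only [List.length_cons, List.length_nil] at this
  push_cast at this
  linarith

end ItCLay

end Claimed.Agent.R256
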