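-- KEEP
import Claimed.Agent.R256.Int.Cost.First

/-!
# Row 256, Sec. 5, block COST: time bits and the two width bounds      (helper267; prefix `it_c_`)

 `it_c_core_time`     05 l.178-183 : even after a fine phase name the time bits cost `d l` (reveal the side, clause `AdmM.time` at `(0, l)`)
 `it_c_core_width_q`  05 l.358-373 : `H(Wd_l | C_*) ≤ H(F_{l,2l} | 𝒟) + ...`   (clause `wq`, (vb), `F_{l,2l}` from `F_K` up to three lists, `2 l ≤ K`)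
 `it_c_core_width_l`  05 l.354-357 : `H(Wd_l | C_*) ≤ H(F_l | 𝒟) + l L + ...`  (clause `wl`, (vb))
-/

set_option autoImplicit false

namespace Claimed.Agent.R256

open Claimed.Agent.R255
open Claimed.Agent.R255.FLaw (pair)
open scoped BigOperators
open Classical

namespace Tan
variable {T : Tan}

/-- TIME BITS -/
theorem it_c_core_time {a : ItPar} (ha : a.Ok) {pk : ItPk} (hpk : pk.Ok) {τ κ0 acc : ℝ} (hacc : 0 ≤ acc)
    (hT : T.Adm a pk τ κ0 acc) {l : ℝ} (hl : l ∈ pk.Lam) (hl0 : 0 < l) (h0G : (0 : ℝ) ∈ pk.G) (hlG : l ∈ pk.G) (Q : ℝ) :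
    a.d * l * T.L - (T.cLg a acc + (1 + a.d * l) * acc * T.L) + T.P.miC (T.Fn Q) (T.O l) T.Cs ≤ T.P.entC (T.O l) T.Cs := by
  obtain ⟨h0, h1⟩ := it_c_adm_basic hT
  have hB : 1 ≤ a.B0 := ha.2.2.2.2.2.2.2.2
  have hd : 0 < a.d := ha.2.1
  have hL := it_c_L_pos h0 h1
  obtain ⟨hA1, hA2, hdd⟩ := T.it_c_A_ge h0 h1 a hB acc hacc
  have hA : 1 ≤ T.cA a acc := by linarith
  obtain ⟨p0, p1, p2, p3, p4, p5⟩ := it_c_aux_pow hA
  set Y0 := pair T.Zs (pair (T.thn 0 0) (T.rn 0 (T.rdep a 0))) with hY0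
  -- the time name
  have t1 : a.d * l * T.L - (1 + a.d * l) * acc * T.L ≤ T.P.entC (T.thn 0 l) Y0 := by
    have hpr := hT.tm.time 0 h0G l hlG hl0
    rw [sub_zero] at hpr
    rcases le_or_gt 0 ((a.d * l - acc) * T.L) with hc | hc
    · have := ltk_ent_ge T.P (T.thn 0 l) Y0 hc hpr
      have h3 : acc * ((a.d * l - acc) * T.L) ≤ acc * (a.d * l * T.L) := by
        apply mul_le_mul_of_nonneg_left _ hacc
        nlinarith
      nlinarith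
    · have := ent_entC_nonneg T.P (T.thn 0 l) Y0
      have h3 : 0 ≤ acc * (a.d * l * T.L) := by positivity
      nlinarith
  have t2 := it_c_via T.P (T.thn 0 l) (T.O l) Y0
  have t3 : T.P.entC (T.thn 0 l) (pair (T.O l) Y0) ≤ T.cLg a acc := by
    refine tl_nval_cell T.P (pair (T.O l) Y0) (fun ω => (T.mrk 0 ω).th) (R := T.cR a acc) h0 h1 hl0.le
      (fun ω₀ => ⟨((T.it_c_dec l (hT.tg.dfun l hl)).choose (T.O l ω₀) (T.Cs ω₀)).th, fun ω hω he => ?_⟩)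
    simp only [hY0, pair, Prod.mk.injEq] at he
    rw [← he.1, ← hT.t0.side_C ω ω₀ he.2.1, ← (T.it_c_dec l (hT.tg.dfun l hl)).choose_spec ω hω, abs_sub_comm]
    refine ((hT.tg.dsp l hl ω hω).time).trans (mul_le_mul_of_nonneg_right ?_ (Real.rpow_pos_of_pos h0 _).le)
    unfold Tan.cR
    linarith
  have t4 : T.P.entC (T.O l) Y0 ≤ T.P.entC (T.O l) (pair (T.Fn Q) T.Cs) := by
    refine ent_entC_anti _ _ _ _ fun ω ω' _ _ h => ?_
    simp only [hY0, pair, Prod.mk.injEq] at h ⊢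
    refine ⟨?_, hT.t0.side_C ω ω' h.1⟩
    simp only [Tan.Fn, hT.t0.side_F ω ω' h.1]
  have t5 : T.P.miC (T.Fn Q) (T.O l) T.Cs = T.P.entC (T.O l) T.Cs - T.P.entC (T.O l) (pair (T.Fn Q) T.Cs) := by
    rw [ent_miC_comm, ent_miC_eq]
  linarith

/-- marked conditioning costs at most (vb): any observation `X` that `F_K` and the root read up to `e` -/
theorem it_c_vb {a : ItPar} {pk : ItPk} {τ κ0 acc : ℝ} (hT : T.Adm a pk τ κ0 acc) {α : Type} (X : T.Ω → α) :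
    T.P.entC X T.Cs ≤ T.P.entC X (T.Dd pk.M) + acc * T.L + T.P.entC X (pair (T.Fn pk.K) T.Cs) := by
  have s1 := ent_miC_eq T.P X (T.Xi pk.M) T.Cs
  have s2 : T.P.entC X (pair (T.Xi pk.M) T.Cs) = T.P.entC X (T.Dd pk.M) := by
    refine ent_entC_congr _ _ _ _ _ (fun ω ω' _ _ => ?_) fun _ _ _ _ _ => Iff.rfl
    simp only [pair, Tan.Dd, Prod.mk.injEq]
    exact and_comm
  have s3 : T.P.miC X (T.Xi pk.M) T.Cs = T.P.miC (T.Xi pk.M) X T.Cs := ent_miC_comm _ _ _ _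
  have s4 : T.P.miC (T.Xi pk.M) X T.Cs ≤ T.P.miC (T.Xi pk.M) (pair X (T.Fn pk.K)) T.Cs :=
    ent_miC_mono _ _ _ _ _ fun ω ω' _ _ h _ => (Prod.ext_iff.1 h).1
  have s5 := ent_miC_chain T.P (T.Xi pk.M) X (T.Fn pk.K) T.Cs
  have s6 := ent_miC_le_right T.P (T.Xi pk.M) X (pair (T.Fn pk.K) T.Cs)
  have s7 : T.P.miC (T.Xi pk.M) (T.Fn pk.K) T.Cs = T.P.miC (T.Fn pk.K) (T.Xi pk.M) T.Cs := ent_miC_comm _ _ _ _
  have s8 := hT.ti.vb
  linarith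

/-- LINEAR WIDTH -/
theorem it_c_core_width_l {a : ItPar} {pk : ItPk} {τ κ0 acc : ℝ}
    (hT : T.Adm a pk τ κ0 acc) (hq : T.quad = false) {l : ℝ} (hl : l ∈ pk.Lam) (hlK : l ≤ pk.K) :
    T.P.entC (T.Wd l) T.Cs ≤ T.hA pk.M l + l * T.L + 2 * acc * T.L := by
  obtain ⟨h0, h1⟩ := it_c_adm_basic hT
  have s1 := it_c_via T.P (T.Wd l) (T.Fn l) T.Cs
  have s2 := ent_entC_le_log_nval T.P _ _ (hT.tg.wl hq l hl)
  have s3 : Real.log (T.δ ^ (-l - acc)) = (l + acc) * T.L := by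
    rw [Real.log_rpow h0, T.it_c_L_eq]; ring
  have s4 := it_c_vb hT (T.Fn l)
  have s5 : T.P.entC (T.Fn l) (pair (T.Fn pk.K) T.Cs) = 0 :=
    ent_entC_eq_zero _ _ _ fun ω ω' _ _ h => T.it_c_Fn_nest h0 h1 hlK (Prod.ext_iff.1 h).1
  have s6 : T.hA pk.M l = T.P.entC (T.Fn l) (T.Dd pk.M) := rfl
  rw [s3] at s2
  linarith

/-- the recentred coordinate `y - 2 [x]_l b` resp. `y - [x]_l b` is read by `F_K` within `(3 + 2 B0) δ^K` -/
theorem it_c_hn_pt {δ : ℝ} (h0 : 0 < δ) (h1 : δ < 1) {l K B0 c x y b : ℝ} (hl : 0 ≤ l) (hc : |c| ≤ 2) (hx : |x| ≤ B0) :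
    |(y - c * trep δ l x * b) - (trep δ K y - c * trep δ l x * trep δ K b)| ≤ (3 + 2 * B0) * δ ^ K := by
  have e1 := tl_abs_sub_trep h0 K y
  have e2 := tl_abs_sub_trep h0 K b
  have e3 := it_c_trep_bd h0 h1 hl hx
  have hK : 0 ≤ δ ^ K := (Real.rpow_pos_of_pos h0 _).le
  have key : (y - c * trep δ l x * b) - (trep δ K y - c * trep δ l x * trep δ K b)
      = (y - trep δ K y) - c * (trep δ l x * (b - trep δ K b)) := by ring
  rw [key]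
  have := it_c_aux_sub e1 (it_c_aux_m2 hc (it_c_aux_m2 e3 e2))
  refine this.trans (le_of_eq ?_)
  ring

/-- QUADRATIC WIDTH -/
theorem it_c_core_width_q {a : ItPar} (ha : a.Ok) {pk : ItPk} {τ κ0 acc : ℝ} (hacc : 0 ≤ acc)
    (hT : T.Adm a pk τ κ0 acc) (hq : T.quad = true) {l : ℝ} (hl : l ∈ pk.Lam) (hl0 : 0 < l) (hlK : 2 * l ≤ pk.K) :
    T.P.entC (T.Wd l) T.Cs ≤ T.hW pk.M l (2 * l) + 3 * T.cLg a acc + 2 * acc * T.L := by
  obtain ⟨h0, h1⟩ := it_c_adm_basic hT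
  have hB : 1 ≤ a.B0 := ha.2.2.2.2.2.2.2.2
  obtain ⟨hA1, hA2, hdd⟩ := T.it_c_A_ge h0 h1 a hB acc hacc
  have hA : 1 ≤ T.cA a acc := by linarith
  obtain ⟨p0, p1, p2, p3, p4, p5⟩ := it_c_aux_pow hA
  have s1 := it_c_via T.P (T.Wd l) (T.Hn l (2 * l)) T.Cs
  have s2 := ent_entC_le_log_nval T.P _ _ (hT.tg.wq hq l hl)
  have s3 : Real.log (T.δ ^ (-acc)) = acc * T.L := by
    rw [Real.log_rpow h0, T.it_c_L_eq]; ring
  have s4 := it_c_vb hT (T.Hn l (2 * l))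
  have s6 : T.hW pk.M l (2 * l) = T.P.entC (T.Hn l (2 * l)) (T.Dd pk.M) := rfl
  set Z := pair (T.Fn pk.K) T.Cs with hZ
  have hR : (3 + 2 * a.B0) ≤ T.cR a acc := by
    unfold Tan.cR
    nlinarith
  have hKl : T.δ ^ pk.K ≤ T.δ ^ (2 * l) := Real.rpow_le_rpow_of_exponent_ge h0 h1.le hlK
  have hrep : ∀ ω ω₀, Z ω = Z ω₀ → itR T.δ pk.K (T.F ω) = itR T.δ pk.K (T.F ω₀) ∧ T.Fn l ω = T.Fn l ω₀ := by
    intro ω ω₀ he
    simp only [hZ, pair, Prod.mk.injEq] at he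
    exact ⟨it_c_itR_of_itF he.1, T.it_c_Fn_nest h0 h1 (by linarith) he.1⟩
  -- one recentred coordinate
  have gen : ∀ (c : ℝ) (x y b : ItPh → ℝ), |c| ≤ 2 → (∀ ω, T.P.p ω ≠ 0 → |x (T.F ω)| ≤ a.B0) →
      (∀ ω ω₀, Z ω = Z ω₀ → trep T.δ l (x (T.F ω)) = trep T.δ l (x (T.F ω₀)) ∧ trep T.δ pk.K (y (T.F ω)) = trep T.δ pk.K (y (T.F ω₀))
        ∧ trep T.δ pk.K (b (T.F ω)) = trep T.δ pk.K (b (T.F ω₀))) →
      T.P.entC (fun ω => tcell T.δ (2 * l) (y (T.F ω) - c * trep T.δ l (x (T.F ω)) * b (T.F ω))) Z ≤ T.cLg a acc := by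
    intro c x y b hc hx hdet
    refine tl_nval_cell T.P Z (fun ω => y (T.F ω) - c * trep T.δ l (x (T.F ω)) * b (T.F ω)) (R := T.cR a acc) h0 h1 (by linarith)
      (fun ω₀ => ⟨trep T.δ pk.K (y (T.F ω₀)) - c * trep T.δ l (x (T.F ω₀)) * trep T.δ pk.K (b (T.F ω₀)), fun ω hω he => ?_⟩)
    obtain ⟨d1, d2, d3⟩ := hdet ω ω₀ he
    rw [← d1, ← d2, ← d3]
    refine (it_c_hn_pt h0 h1 hl0.le hc (hx ω hω)).trans ?_
    exact mul_le_mul hR hKl (Real.rpow_pos_of_pos h0 _).le (by linarith)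
  have hcomp : ∀ ω ω₀, Z ω = Z ω₀ → ∀ (sel : ItPh → ℝ) (selF : (ℤ × ℤ × ℤ) × (ℤ × ℤ × ℤ) → ℤ),
      (∀ s f, selF (itF T.δ s f) = tcell T.δ s (sel f)) →
      trep T.δ l (sel (T.F ω)) = trep T.δ l (sel (T.F ω₀)) ∧ trep T.δ pk.K (sel (T.F ω)) = trep T.δ pk.K (sel (T.F ω₀)) := by
    intro ω ω₀ he sel selF hsel
    have hl' := (hrep ω ω₀ he).2
    simp only [hZ, pair, Prod.mk.injEq] at he
    constructor
    · apply it_c_trep_of_cell
      rw [← hsel, ← hsel]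
      exact congrArg selF hl'
    · apply it_c_trep_of_cell
      rw [← hsel, ← hsel]
      exact congrArg selF he.1
  have bX : ∀ ω, T.P.p ω ≠ 0 → |(T.F ω).X| ≤ a.B0 := fun ω hω => (it_c_nrm_cBd (hT.t0.bdF ω hω)).1
  have bP : ∀ ω, T.P.p ω ≠ 0 → |(T.F ω).P| ≤ a.B0 := fun ω hω => (it_c_nrm_cBd (hT.t0.bdF ω hω)).2.2.1
  have g1 := gen 2 (fun f => f.X) (fun f => f.Y) (fun f => f.B) (by norm_num) bX (fun ω ω₀ he =>
    ⟨(hcomp ω ω₀ he (fun f => f.X) (fun z => z.1.1) (fun _ _ => rfl)).1, (hcomp ω ω₀ he (fun f => f.Y) (fun z => z.2.1) (fun _ _ => rfl)).2,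
      (hcomp ω ω₀ he (fun f => f.B) (fun z => z.1.2.1) (fun _ _ => rfl)).2⟩)
  have g2 := gen 1 (fun f => f.P) (fun f => f.N) (fun f => f.X) (by norm_num) bP (fun ω ω₀ he =>
    ⟨(hcomp ω ω₀ he (fun f => f.P) (fun z => z.1.2.2) (fun _ _ => rfl)).1, (hcomp ω ω₀ he (fun f => f.N) (fun z => z.2.2.1) (fun _ _ => rfl)).2,
      (hcomp ω ω₀ he (fun f => f.X) (fun z => z.1.1) (fun _ _ => rfl)).2⟩)
  have g3 := gen 1 (fun f => f.P) (fun f => f.D) (fun f => f.B) (by norm_num) bP (fun ω ω₀ he =>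
    ⟨(hcomp ω ω₀ he (fun f => f.P) (fun z => z.1.2.2) (fun _ _ => rfl)).1, (hcomp ω ω₀ he (fun f => f.D) (fun z => z.2.2.2) (fun _ _ => rfl)).2,
      (hcomp ω ω₀ he (fun f => f.B) (fun z => z.1.2.1) (fun _ _ => rfl)).2⟩)
  simp only [one_mul] at g2 g3
  have g0 : T.P.entC (fun ω => (tcell T.δ l (T.F ω).X, tcell T.δ l (T.F ω).B, tcell T.δ l (T.F ω).P)) Z = 0 :=
    ent_entC_eq_zero _ _ _ fun ω ω' _ _ he => by
      have := (hrep ω ω' he).2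
      simp only [Tan.Fn, itF, Prod.mk.injEq] at this
      simp only [Prod.mk.injEq]
      exact this.1
  have a0 : T.Hn l (2 * l) = pair (fun ω => (tcell T.δ l (T.F ω).X, tcell T.δ l (T.F ω).B, tcell T.δ l (T.F ω).P))
      (pair (fun ω => tcell T.δ (2 * l) ((T.F ω).Y - 2 * trep T.δ l (T.F ω).X * (T.F ω).B))
        (pair (fun ω => tcell T.δ (2 * l) ((T.F ω).N - trep T.δ l (T.F ω).P * (T.F ω).X))
          (fun ω => tcell T.δ (2 * l) ((T.F ω).D - trep T.δ l (T.F ω).P * (T.F ω).B)))) := rfl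
  have s5 : T.P.entC (T.Hn l (2 * l)) Z ≤ 3 * T.cLg a acc := by
    rw [a0]
    have b1 := ent_entC_pair_le_add T.P (fun ω => (tcell T.δ l (T.F ω).X, tcell T.δ l (T.F ω).B, tcell T.δ l (T.F ω).P))
      (pair (fun ω => tcell T.δ (2 * l) ((T.F ω).Y - 2 * trep T.δ l (T.F ω).X * (T.F ω).B))
        (pair (fun ω => tcell T.δ (2 * l) ((T.F ω).N - trep T.δ l (T.F ω).P * (T.F ω).X))
          (fun ω => tcell T.δ (2 * l) ((T.F ω).D - trep T.δ l (T.F ω).P * (T.F ω).B)))) Z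
    have b2 := ent_entC_pair_le_add T.P (fun ω => tcell T.δ (2 * l) ((T.F ω).Y - 2 * trep T.δ l (T.F ω).X * (T.F ω).B))
        (pair (fun ω => tcell T.δ (2 * l) ((T.F ω).N - trep T.δ l (T.F ω).P * (T.F ω).X))
          (fun ω => tcell T.δ (2 * l) ((T.F ω).D - trep T.δ l (T.F ω).P * (T.F ω).B))) Z
    have b3 := ent_entC_pair_le_add T.P (fun ω => tcell T.δ (2 * l) ((T.F ω).N - trep T.δ l (T.F ω).P * (T.F ω).X))
          (fun ω => tcell T.δ (2 * l) ((T.F ω).D - trep T.δ l (T.F ω).P * (T.F ω).B)) Z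
    linarith
  rw [s3] at s2
  linarith

end Tan

end Claimed.Agent.R256
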