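-- KEEP
import Claimed.Agent.R256.Int.Cost.Ranges
import Claimed.Agent.R256.Int.Cost.Time

/-!
# Row 256, Sec. 5, block COST: THE SEVEN EXITS      (helper267; prefix `it_c_`)

 `it_c_time, it_c_w, it_c_pi, it_c_G, it_c_x, it_c_width_q, it_c_width_l`
 = `it_cost_time, it_cost_w, it_cost_pi, it_cost_G, it_cost_x, it_width_q, it_width_l` of `Int/Contract.lean` VERBATIM, with `T.inf l p q` unfolded
 (`T.inf l p q = T.P.miC (T.Fn q) (T.O l) (pair T.Cs (T.Fn p))` by `rfl`).   No `sorry` in `Int/Cost/*`.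
-/

set_option autoImplicit false

namespace Claimed.Agent.R256

open Claimed.Agent.R255
open Claimed.Agent.R255.FLaw (pair)
open scoped BigOperators
open Classical

/-- wrapper: a layer statement from a core with error `c1 + c2 acc L` -/
theorem it_c_wrapL (quad : Bool) (a : ItPar) (κ1 : ℝ) (hκ : 0 < κ1) (c1 c2 : ℝ → ℝ → ℝ) (Φ : Tan → ItPk → ℝ → ℝ → ℝ → Prop)
    (hcore : ∀ (p q η : ℝ) (pk : ItPk) (acc τ κ0 : ℝ) (T : Tan), 0 < η → 0 < p → p < q → q ≤ (1 + κ1) * p → pk.Ok →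
      p ∈ pk.G → q ∈ pk.G → 0 < acc → acc ≤ 1 → T.quad = quad → T.Adm a pk τ κ0 acc →
      c1 p q + c2 p q * acc * T.L ≤ η * (q - p) * T.L → Φ T pk p q η) :
    ItLayer quad false false a Φ := by
  intro η hη
  refine ⟨1, one_pos, fun κ0 _ => ⟨κ1, hκ, fun p q hp hpq hq => ?_⟩⟩
  obtain ⟨acc0, h0, h1, hs⟩ := it_c_small (c1 p q) (c2 p q) (η * (q - p)) (mul_pos hη (by linarith))
  refine ⟨⟨0, 0, 0, 1, {p, q}, ∅⟩, acc0, ⟨one_pos, ?_⟩, h0, fun pk acc T hpk hle hacc hacc0 hquad hT _ _ => ?_⟩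
  · intro x hx
    simp only [Finset.mem_insert, Finset.mem_singleton] at hx
    rcases hx with rfl | rfl <;> linarith
  · have hG := hle.2.2.2.2
    exact hcore p q η pk acc 1 κ0 T hη hp hpq hq hpk (hG (by simp)) (hG (by simp)) hacc (hacc0.trans h1) hquad hT
      (hs acc T.δ hT.t0.δ0 hT.small hacc0)

/-- wrapper: a statement at one depth -/
theorem it_c_wrapD (quad : Bool) (a : ItPar) (c1 c2 : ℝ → ℝ) (Φ : Tan → ItPk → ℝ → ℝ → Prop)
    (hcore : ∀ (l η : ℝ) (pk : ItPk) (acc τ κ0 : ℝ) (T : Tan), 0 < η → 0 < l → pk.Ok →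
      (0 : ℝ) ∈ pk.G → l ∈ pk.G → 2 * l ≤ pk.K → 0 < acc → acc ≤ 1 → T.quad = quad → T.Adm a pk τ κ0 acc →
      c1 l + c2 l * acc * T.L ≤ η * l * T.L → Φ T pk l η) :
    ItDepth quad false false a Φ := by
  intro η hη
  refine ⟨1, one_pos, fun κ0 _ l hl => ?_⟩
  obtain ⟨acc0, h0, h1, hs⟩ := it_c_small (c1 l) (c2 l) (η * l) (mul_pos hη hl)
  refine ⟨⟨0, 2 * l, 0, 1, {0, l}, ∅⟩, acc0, ⟨one_pos, ?_⟩, h0, fun pk acc T hpk hle hacc hacc0 hquad hT _ _ => ?_⟩
  · intro x hx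
    simp only [Finset.mem_insert, Finset.mem_singleton] at hx
    rcases hx with rfl | rfl <;> linarith
  · have hG := hle.2.2.2.2
    exact hcore l η pk acc 1 κ0 T hη hl hpk (hG (by simp)) (hG (by simp)) hle.2.1 hacc (hacc0.trans h1) hquad hT
      (hs acc T.δ hT.t0.δ0 hT.small hacc0)

theorem it_c_rho_pos (a : ItPar) (ha : a.Ok) (quad : Bool) : 0 < a.crho quad := by
  unfold ItPar.crho
  split_ifs with h
  · exact lt_min one_pos (by linarith [h.2])
  · exact lt_min one_pos ha.1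

/-- the ratio of a short layer -/
noncomputable def ItPar.ckap (a : ItPar) (quad : Bool) : ℝ := min 1 (a.crho quad / (1 + a.c))

theorem it_c_top_eqns_cite : True := by
  have := @ItPar.ckap.eq_1
  trivial

theorem it_c_kap_pos (a : ItPar) (ha : a.Ok) (quad : Bool) : 0 < a.ckap quad := by
  have := it_c_rho_pos a ha quad
  have := ha.1
  exact lt_min one_pos (by positivity)

/-- the bundle of a short layer below `(1 + c) l` -/
theorem it_c_mk_lay {T : Tan} {a : ItPar} {pk : ItPk} {acc τ κ0 l p q : ℝ} {quad : Bool} (ha : a.Ok) (hpk : pk.Ok) (hacc : 0 < acc)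
    (hT : T.Adm a pk τ κ0 acc) (hquad : T.quad = quad) (hl : l ∈ pk.Lam) (hp : 0 < p) (hpq : p < q)
    (hq : q ≤ (1 + a.ckap quad) * p) (hqG : q ∈ pk.G) (hql : q ≤ (1 + a.c) * l) : ItCLay T a pk acc l p q := by
  have hc := ha.1
  have hρ := it_c_rho_pos a ha quad
  have k1 : a.ckap quad ≤ 1 := min_le_left _ _
  have k2 : a.ckap quad ≤ a.crho quad / (1 + a.c) := min_le_right _ _
  refine ⟨ha, hpk, hacc.le, ⟨τ, κ0, hT⟩, hl, hp, hpq, by nlinarith, ?_, ?_⟩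
  · rw [hquad]
    have e1 : q - p ≤ a.crho quad / (1 + a.c) * p := by nlinarith
    have e2 : a.crho quad / (1 + a.c) * p ≤ a.crho quad / (1 + a.c) * ((1 + a.c) * l) :=
      mul_le_mul_of_nonneg_left (by linarith) (by positivity)
    have e3 : a.crho quad / (1 + a.c) * ((1 + a.c) * l) = a.crho quad * l := by field_simp
    linarith
  · have := (hpk.2.2.2.2.2.2 q hqG).2
    have := hpk.2.1
    linarith

/-- nine lists -/
theorem it_c_nine {T : Tan} {a : ItPar} {pk : ItPk} {acc τ κ0 : ℝ} (ha : a.Ok) (hacc : 0 < acc) (hT : T.Adm a pk τ κ0 acc) (n : ℝ) (hn : 0 ≤ n) :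
    n * T.cLg a acc ≤ n * (Real.log 402 + 6 * Real.log (a.B0 + 1)) + n * 6 * acc * T.L := by
  have := (T.it_c_lg_le hT.t0.δ0 hT.t0.δ1 a ha.2.2.2.2.2.2.2.2 acc hacc.le).2
  nlinarith

/-! ## the exits -/

/-- = `it_cost_time` -/
theorem it_c_time (quad : Bool) (a : ItPar) (ha : a.Ok) :
    ItDepth quad false false a (fun T pk l η => l ∈ pk.Lam → ∀ Q : ℝ,
      (a.d - η) * l * T.L + T.P.miC (T.Fn Q) (T.O l) T.Cs ≤ T.P.entC (T.O l) T.Cs) := by
  refine it_c_wrapD quad a (fun _ => 1 * (Real.log 402 + 6 * Real.log (a.B0 + 1))) (fun l => 1 * 6 + (1 + a.d * l)) _ ?_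
  intro l η pk acc τ κ0 T hη hl0 hpk h0G hlG _ hacc hacc1 _ hT hs hl Q
  have k1 := Tan.it_c_core_time ha hpk hacc.le hT hl hl0 h0G hlG Q
  have k2 := it_c_nine ha hacc hT 1 zero_le_one
  nlinarith

/-- = `it_cost_w` -/
theorem it_c_w (quad : Bool) (a : ItPar) (ha : a.Ok) :
    ItLayer quad false false a (fun T pk p q η => ∀ l ∈ pk.Lam, q ≤ min 1 a.c * l →
      T.hF pk.M p q - (a.m + η) * (q - p) * T.L ≤ T.P.miC (T.Fn q) (T.O l) (pair T.Cs (T.Fn p))) := by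
  refine it_c_wrapL quad a 1 one_pos (fun _ _ => Real.log 2 + Real.log (6 * a.B0) + 5 * (Real.log 402 + 6 * Real.log (a.B0 + 1)))
    (fun p q => 5 * 6 + (2 + q + a.m * p)) _ ?_
  intro p q η pk acc τ κ0 T hη hp hpq _ hpk hpG hqG hacc hacc1 _ hT hs l hl hq1
  have k1 := Tan.it_c_core_w ha hacc.le hacc1 hT hl (hpk.2.2.2.2.2.1 l hl) hp hpq hq1 hpG hqG
  have k2 := it_c_nine ha hacc hT 5 (by norm_num)
  nlinarith

/-- = `it_cost_pi` -/
theorem it_c_pi (quad : Bool) (a : ItPar) (ha : a.Ok) (hc : a.c < 1) :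
    ItLayer quad false false a (fun T pk p q η => ∀ l ∈ pk.Lam, a.c * l ≤ p → q ≤ l →
      T.hh pk.M p q (T.rPi p 0) [] - η * (q - p) * T.L ≤ T.P.miC (T.Fn q) (T.O l) (pair T.Cs (T.Fn p))) := by
  refine it_c_wrapL quad a (a.ckap quad) (it_c_kap_pos a ha quad) (fun _ _ => 9 * (Real.log 402 + 6 * Real.log (a.B0 + 1)))
    (fun _ _ => 9 * 6) _ ?_
  intro p q η pk acc τ κ0 T hη hp hpq hq pkok hpG hqG hacc hacc1 hquad hT hs l hl _ hql
  have hl0 := pkok.2.2.2.2.2.1 l hl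
  have H := it_c_mk_lay ha pkok hacc hT hquad hl hp hpq hq hqG (by have := ha.1; nlinarith)
  have k1 := H.core_pi hql
  have k2 := it_c_nine ha hacc hT 9 (by norm_num)
  linarith

/-- = `it_cost_G` -/
theorem it_c_G (quad : Bool) (a : ItPar) (ha : a.Ok) (hc : 1 < a.c) :
    ItLayer quad false false a (fun T pk p q η => ∀ l ∈ pk.Lam, l ≤ p → q ≤ a.c * l →
      T.hh pk.M p q (T.rG p 0) [] - η * (q - p) * T.L ≤ T.P.miC (T.Fn q) (T.O l) (pair T.Cs (T.Fn p))) := by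
  refine it_c_wrapL quad a (a.ckap quad) (it_c_kap_pos a ha quad) (fun _ _ => 9 * (Real.log 402 + 6 * Real.log (a.B0 + 1)))
    (fun _ _ => 9 * 6) _ ?_
  intro p q η pk acc τ κ0 T hη hp hpq hq pkok hpG hqG hacc hacc1 hquad hT hs l hl _ hql
  have hl0 := pkok.2.2.2.2.2.1 l hl
  have H := it_c_mk_lay ha pkok hacc hT hquad hl hp hpq hq hqG (by nlinarith)
  have k1 := H.core_G hc hql
  have k2 := it_c_nine ha hacc hT 9 (by norm_num)
  linarith

/-- = `it_cost_x` -/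
theorem it_c_x (quad : Bool) (a : ItPar) (ha : a.Ok) :
    ItLayer quad false false a (fun T pk p q η => ∀ l ∈ pk.Lam, max 1 a.c * l ≤ p → q ≤ (1 + a.c) * l →
      T.hh pk.M p q [T.cx p 0] [] - η * (q - p) * T.L ≤ T.P.miC (T.Fn q) (T.O l) (pair T.Cs (T.Fn p))) := by
  refine it_c_wrapL quad a (a.ckap quad) (it_c_kap_pos a ha quad) (fun _ _ => 9 * (Real.log 402 + 6 * Real.log (a.B0 + 1)))
    (fun _ _ => 9 * 6) _ ?_
  intro p q η pk acc τ κ0 T hη hp hpq hq pkok hpG hqG hacc hacc1 hquad hT hs l hl _ hql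
  have H := it_c_mk_lay ha pkok hacc hT hquad hl hp hpq hq hqG hql
  have k1 := H.core_x hql
  have k2 := it_c_nine ha hacc hT 9 (by norm_num)
  linarith

/-- = `it_width_q` -/
theorem it_c_width_q (a : ItPar) (ha : a.Ok) :
    ItDepth true false false a (fun T pk l η => l ∈ pk.Lam →
      T.P.entC (T.Wd l) T.Cs ≤ T.hW pk.M l (2 * l) + η * l * T.L) := by
  refine it_c_wrapD true a (fun _ => 3 * (Real.log 402 + 6 * Real.log (a.B0 + 1))) (fun _ => 3 * 6 + 2) _ ?_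
  intro l η pk acc τ κ0 T hη hl0 hpk h0G hlG hK hacc hacc1 hquad hT hs hl
  have k1 := Tan.it_c_core_width_q ha hacc.le hT hquad hl hl0 hK
  have k2 := it_c_nine ha hacc hT 3 (by norm_num)
  nlinarith

/-- = `it_width_l` -/
theorem it_c_width_l (a : ItPar) (ha : a.Ok) :
    ItDepth false false false a (fun T pk l η => l ∈ pk.Lam →
      T.P.entC (T.Wd l) T.Cs ≤ T.hA pk.M l + (1 + η) * l * T.L) := by
  refine it_c_wrapD false a (fun _ => 0) (fun _ => 2) _ ?_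
  intro l η pk acc τ κ0 T hη hl0 hpk h0G hlG hK hacc hacc1 hquad hT hs hl
  have k1 := Tan.it_c_core_width_l hT hquad hl (by linarith)
  nlinarith

end Claimed.Agent.R256
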